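import Vale.Agent.P297Y.AJ.Sk
import Vale.Agent.P025.R2.H941.BcCFF
import Vale.Agent.P025.R2.H816.BC4
import Vale.Agent.P025.R2.H492.Ext1

/-! Base change of the constants of a function field. -/

set_option linter.all false

namespace Vale.Agent.P297Y.AJ

open Vale.Agent.P019P P025H816
open scoped TensorProduct

namespace Bc

section one

variable {T F : Type} [Field T] [Field F] [Algebra T F]

theorem exists_isBas (W : Submodule T F) [FiniteDimensional T W] :
    ∃ (m : ℕ) (e : Fin m → F), IsBas W e := by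
  let β := Module.finBasis T W
  refine ⟨_, fun l => (β l : F), β.linearIndependent.map' W.subtype (Submodule.ker_subtype W), ?_⟩
  have h := congrArg (Submodule.map W.subtype) β.span_eq
  rwa [Submodule.map_span, ← Set.range_comp, Submodule.map_top, Submodule.range_subtype] at h

theorem finrank_bas {W : Submodule T F} {m : ℕ} {e : Fin m → F} (h : IsBas W e) :
    Module.finrank T W = m := by
  rw [← h.2, finrank_span_eq_card h.1, Fintype.card_fin]

variable [CFF T F]

theorem pv_zero {P : Plk T F} {f : F} : pv P f 0 ↔ f = 0 ∨ 1 ≤ ord P f := by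
  rw [pv, map_zero, sub_zero, mem_Mge]

theorem pv_sum (P : Plk T F) {ι : Type} (s : Finset ι) {f : ι → F} {c : ι → T} (t : ι → T)
    (h : ∀ a, pv P (f a) (c a)) : pv P (∑ a ∈ s, t a • f a) (∑ a ∈ s, t a * c a) :=
  (val_plc P _ _).1 (Pl.val_sum s fun a _ => ((val_plc P _ _).2 (h a)).smul (t a))

/-- A place with values in the constants is a place of the function field. -/
theorem exists_plk (V : Pl T F T) : ∃ P : Plk T F, ∀ f c, V.Val f c → pv P f c := by
  have h1 : V.O ≠ ⊤ := fun h => by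
    obtain ⟨x, hx, -⟩ := CFF.ex (k := T) (F := F)
    have h2 : ∀ y : F, y ∈ V.O := fun y => by rw [h]; trivial
    have h3 := (Pl.val_of_mem (h2 x)).sub (V.val_cst (V.r ⟨x, h2 x⟩))
    rw [Algebra.algebraMap_self, RingHom.id_apply, sub_self, ← inv_inv (x - _)] at h3
    refine h3.not_mem (inv_ne_zero fun h4 => hx ?_) (h2 _)
    rw [sub_eq_zero.1 h4]
    exact isAlgebraic_algebraMap _
  obtain ⟨P, hP⟩ : ∃ P : Plk T F, ∀ z, z ∈ V.O → z ∈ P.1 := ⟨⟨V.O, V.cst, h1⟩, fun _ h => h⟩
  refine ⟨P, fun f c h => ?_⟩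
  obtain ⟨d, hd⟩ := exists_pv (hP _ h.mem)
  by_cases hc : c = d
  · rwa [hc]
  have h2 := h.sub (V.val_cst d)
  have h3 : c - algebraMap T T d ≠ 0 := sub_ne_zero.2 hc
  have h4 := (mem_iff_ord P _).1 (hP _ (h2.inv h3).mem)
  have h5 := h2.ne_zero h3
  rw [ord_inv] at h4
  have h6 := h4.resolve_left (inv_ne_zero h5)
  have h7 := (mem_Mge.1 hd).resolve_left h5
  omega

variable (T F) in
theorem infinite_plk : Infinite (Plk T F) := by
  have : IsAlgClosed T := CFF.ac F
  obtain ⟨x, hx, -⟩ := CFF.ex (k := T) (F := F)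
  have h1 : ∀ a : T, x ≠ algebraMap T F a := fun a h => hx (h ▸ isAlgebraic_algebraMap a)
  choose P hP using fun c => exists_zero (nc_sub h1 c)
  exact Infinite.of_injective P fun c c' h => cst_unique (P c) (hP c) (h ▸ hP c')

end one

variable {k F T F' : Type} [Field k] [Field F] [Field T] [Field F'] [Algebra k F] [Algebra k T]
  [Algebra T F'] [CFF k F] [CFF T F'] {j : F →+* F'}

theorem pv_up (h : IsBC (algebraMap k T) j) {P : Plk k F} {P' : Plk T F'}
    (h1 : ∀ z, ord P' (j z) = ord P z) (f : F) (c : k) (hf : pv P f c) :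
    pv P' (j f) (algebraMap k T c) := by
  rw [pv, ← h.comm, ← map_sub, mem_Mge, h1]
  exact hf.imp_left fun e => by rw [e, map_zero]

theorem exists_above (h : IsBC (algebraMap k T) j) (P : Plk k F) :
    ∃ P' : Plk T F', (∀ z, z ∈ P.1 ↔ j z ∈ P'.1) ∧
      ∀ f c, pv P f c → pv P' (j f) (algebraMap k T c) := by
  obtain ⟨P', h1, h2, -⟩ := h.exists_unique_above P
  exact ⟨P', h1, pv_up h h2⟩

theorem LL_single_up (h : IsBC (algebraMap k T) j) {P : Plk k F} {P' : Plk T F'}
    (hP : ∀ f c, pv P f c → pv P' (j f) (algebraMap k T c)) (n : ℕ) {z : F}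
    (hz : z ∈ LL k (Finsupp.single P (n : ℤ))) : j z ∈ LL T (Finsupp.single P' (n : ℤ)) := by
  classical
  obtain ⟨Q, -, h2, h3⟩ := h.exists_unique_above P
  obtain ⟨π, π0, π1⟩ := exists_unif P
  obtain rfl : P' = Q := h3 P' (fun z hz => by
    obtain ⟨c, hc⟩ := exists_pv hz
    exact pv_mem (hP _ _ hc)) ⟨π, π0, by
      have := hP π 0 (pv_zero.2 (Or.inr π1.ge))
      rw [map_zero, pv_zero] at this
      have := this.resolve_left (by simpa using π0)
      omega⟩
  rcases mem_LL.1 hz with rfl | hz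
  · rw [map_zero]
    exact zero_mem _
  refine mem_LL.2 (Or.inr fun Q' => ?_)
  by_cases e : Q' = P'
  · have := hz P
    rw [e, h2]
    rwa [Finsupp.single_eq_same] at this ⊢
  rw [Finsupp.single_eq_of_ne e, neg_zero]
  rcases restr h.comm Q' with h4 | ⟨R, d, d0, h4, h5⟩
  · exact (h4 z).ge
  have h6 : R ≠ P := by
    rintro rfl
    exact e (h3 Q' (fun z hz => (h4 z).1 hz) ⟨π, π0, by rw [h5, π1]; omega⟩)
  have h7 := hz R
  rw [Finsupp.single_eq_of_ne h6, neg_zero] at h7
  rw [h5]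
  exact mul_nonneg d0.le h7

theorem bas [CharZero k] (h : IsBC (algebraMap k T) j) {P : Plk k F} {P' : Plk T F'}
    (hP : ∀ f c, pv P f c → pv P' (j f) (algebraMap k T c)) {n m : ℕ} {e : Fin m → F}
    (hn : 2 * gen k F ≤ n) (he : IsBas (LL k (Finsupp.single P (n : ℤ))) e) :
    IsBas (LL T (Finsupp.single P' (n : ℤ))) fun a => j (e a) := by
  refine ⟨h.indep he.1, Submodule.eq_of_le_of_finrank_eq ?_ ?_⟩
  · rw [Submodule.span_le]
    rintro _ ⟨a, rfl⟩
    exact LL_single_up h hP n (he.2 ▸ Submodule.subset_span ⟨a, rfl⟩)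
  · have h1 := RR_large (k := k) (D := Finsupp.single P (n : ℤ)) (by
      rw [P025H492.dg_can_eq, dg_sgl]; omega)
    have h2 := RR_large (k := T) (D := Finsupp.single P' (n : ℤ)) (by
      rw [P025H492.dg_can_eq, dg_sgl, h.gen_eq]; omega)
    rw [dg_sgl] at h1 h2
    rw [h.gen_eq, ← h1, finrank_bas he] at h2
    rw [finrank_span_eq_card (h.indep he.1), Fintype.card_fin]
    exact_mod_cast h2.symm

theorem pt_ex (hE : E1) (h : IsBC (algebraMap k T) j) (e : Pl k F T) :
    ∃ P : Plk T F', ∀ f c, e.Val f c → pv P (j f) c := by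
  have : IsAlgClosed T := CFF.ac F'
  letI : Algebra k F' := ((algebraMap T F').comp (algebraMap k T)).toAlgebra
  letI : Algebra F F' := j.toAlgebra
  letI : Algebra k e.O := ((algebraMap k F).codRestrict e.O e.cst).toAlgebra
  haveI : IsScalarTower k T F' := IsScalarTower.of_algebraMap_eq fun _ => rfl
  haveI : IsScalarTower k F F' := IsScalarTower.of_algebraMap_eq fun a => (h.comm a).symm
  let ι : e.O →ₐ[k] F := { e.O.subtype with commutes' := fun _ => rfl }
  let r : e.O →ₐ[k] T := { e.r with commutes' := e.r_cst }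
  let ψ : T ⊗[k] e.O →ₐ[T] F' := Algebra.TensorProduct.lift (Algebra.ofId T F')
    ((IsScalarTower.toAlgHom k F F').comp ι) fun _ _ => Commute.all _ _
  let φ : T ⊗[k] e.O →ₐ[T] T := Algebra.TensorProduct.lift (AlgHom.id T T) r
    fun _ _ => Commute.all _ _
  have h1 : ∀ x, ψ x = P025H941.can k F T F'
      (TensorProduct.comm k T F (LinearMap.lTensor T ι.toLinearMap x)) := by
    intro x
    induction x using TensorProduct.induction_on with
    | zero => simp
    | tmul t o =>
      rw [LinearMap.lTensor_tmul, TensorProduct.comm_tmul, P025H941.can_tmul, mul_comm]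
      rfl
    | add x y hx hy => simp only [map_add, hx, hy]
  obtain ⟨V, hV⟩ := hE T F' T (T ⊗[k] e.O) ψ φ fun x hx => by
    rw [h1, ← map_zero (P025H941.can k F T F')] at hx
    have h2 := (P025H941.isBC_of_816 (C := k) (K := F) (C' := T) (K' := F') h).inj hx
    rw [LinearEquiv.map_eq_zero_iff, ← map_zero (LinearMap.lTensor T ι.toLinearMap)] at h2
    rw [Module.Flat.lTensor_preserves_injective_linearMap _ Subtype.val_injective h2, map_zero]
  obtain ⟨P, hP⟩ := exists_plk V
  refine ⟨P, fun f c ⟨h2, h3⟩ => hP _ _ ?_⟩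
  have h4 := hV (1 ⊗ₜ ⟨f, h2⟩)
  simp only [ψ, φ, Algebra.TensorProduct.lift_tmul, map_one, one_mul] at h4
  rw [← h3]
  exact h4

theorem pt_unique [CharZero k] (h : IsBC (algebraMap k T) j) (e : Pl k F T) {P P' : Plk T F'}
    (h1 : ∀ f c, e.Val f c → pv P (j f) c) (h2 : ∀ f c, e.Val f c → pv P' (j f) c) : P = P' := by
  classical
  by_contra hne
  choose up up1 up2 using exists_above h
  have hi : Function.Injective up := fun Q Q' a =>
    Plk.eq_of_le fun z hz => (up1 Q' z).2 (a ▸ (up1 Q z).1 hz)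
  have := infinite_plk k F
  obtain ⟨_, ⟨Q, rfl⟩, hQ⟩ := (Set.infinite_range_of_injective hi).exists_notMem_finset {P, P'}
  rw [Finset.mem_insert, Finset.mem_singleton, not_or] at hQ
  obtain ⟨m, b, hb⟩ := exists_isBas (LL k (Finsupp.single Q ((2 * gen k F + 1 : ℕ) : ℤ)))
  have hb' := bas h (up2 Q) (n := 2 * gen k F + 1) (by omega) hb
  have h3 : ∀ a, b a ∈ e.O := fun a => (e.val_or (b a)).resolve_right fun c => by
    have h0 : j (b a) ≠ 0 := hb'.1.ne_zero a
    have h4 := (pv_zero.1 (h1 _ _ c)).resolve_left (by rw [map_inv₀]; exact inv_ne_zero h0)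
    have h6 : j (b a) ∈ LL T (Finsupp.single (up Q) ((2 * gen k F + 1 : ℕ) : ℤ)) :=
      hb'.2 ▸ Submodule.subset_span ⟨a, rfl⟩
    have h5 := (mem_LL.1 h6).resolve_left h0 P
    rw [map_inv₀, ord_inv] at h4
    rw [Finsupp.single_eq_of_ne (Ne.symm hQ.1)] at h5
    omega
  obtain ⟨u, u0, u1, u2⟩ := P025H492.exists_exact (k := T)
    (D := Finsupp.single (up Q) ((2 * gen k F + 1 : ℕ) : ℤ) - Finsupp.single P' 1) P (by
      rw [map_sub, dg_sgl, dg_sgl, h.gen_eq]
      push_cast
      omega)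
  have u3 : u ∈ Submodule.span T (Set.range fun a => j (b a)) := by
    rw [hb'.2]
    refine mem_LL.2 (Or.inr fun R => le_trans ?_ (u1 R))
    rw [Finsupp.sub_apply, Finsupp.single_apply (a := P')]
    split_ifs <;> omega
  obtain ⟨t, rfl⟩ := (Submodule.mem_span_range_iff_exists_fun T).1 u3
  have h4 := pv_sum P Finset.univ t fun a => h1 _ _ (Pl.val_of_mem (h3 a))
  have h5 := pv_sum P' Finset.univ t fun a => h2 _ _ (Pl.val_of_mem (h3 a))
  have h6 := u1 P'
  rw [Finsupp.sub_apply, Finsupp.single_eq_same, Finsupp.single_eq_of_ne (Ne.symm hQ.2)] at h6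
  rw [Finsupp.sub_apply, Finsupp.single_eq_of_ne hne, Finsupp.single_eq_of_ne (Ne.symm hQ.1)] at u2
  rw [pv_unique h5 (pv_zero.2 (Or.inr (by omega)))] at h4
  have h7 := (pv_zero.1 h4).resolve_left u0
  omega

end Bc

theorem bcx : B_BCX := fun plt =>
  { ex := fun k F T _ _ _ _ _ _ _ => by
      obtain ⟨F', _, _, _, _, _, _, h1, h2⟩ := P025H941.exists_bc_cff k F T
      exact ⟨F', inferInstance, inferInstance, h2, algebraMap F F', h1.to816⟩
    bas := fun _ _ _ _ _ _ _ _ _ _ _ _ _ _ _ h _ _ hP _ _ _ hn he => Bc.bas h hP hn he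
    pt := fun _ _ _ _ _ _ _ _ _ _ _ _ _ _ _ h e =>
      (Bc.pt_ex plt.e1 h e).imp fun _ h1 => ⟨h1, fun _ h2 => Bc.pt_unique h e h2 h1⟩ }

end Vale.Agent.P297Y.AJ
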