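import Vale.Agent.P297Y.AJ.Core0
import Vale.Agent.P297Y.Alg.Defs
import Vale.Agent.P297Y.An.Mor
import Vale.Agent.P297Y.An.Par
import Vale.Agent.P297Z.Final

/-! The statement `CORE` from the fibration and the algebraic part. -/

set_option linter.all false

namespace Vale.Agent.P297Y.AJ

open Vale.Agent.P297Z

theorem core0_of (albf : Sf.ALBF) (mor : Sf.MOR) (star : Sf.STAR) : CORE0 := by
  intro K _ _ T h hp hc
  obtain ⟨φ⟩ := albf K T h hp hc
  obtain ⟨π, hπ⟩ := mor K T h φ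
  exact ⟨φ.k, φ.cff, π, hπ, star K T hp φ π hπ⟩

theorem stage1 : Sf.STAGE1 :=
  Sf.stage2 Sf.mod Sf.shape Sf.van_loci Sf.ev Sf.kill Sf.tau Sf.Sl.pts fun _ _ _ S => S.rul

theorem core (albf : Sf.ALBF) (star : Sf.STAR) : CORE :=
  core_of stage1 (core0_of albf (Sf.mor Sf.par) star)

end Vale.Agent.P297Y.AJ
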