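import Vale.Agent.P297Y.AJ.Sk
import Vale.Agent.P297Y.An.Defs
import Vale.Agent.P297Z.Surf.Asm2

/-! From the statements on models of surfaces to the statement `CORE` on schemes. -/

set_option linter.all false

namespace Vale.Agent.P297Y.AJ

open Vale.Agent.P019P P025H816
open Vale.Agent.P297 (ClosedPt ZeroCycle Rat RatEquiv)
open Vale.Agent.P299
open Vale.Agent.P297Z

/-- The zero-cycles of a surface with `p_g = 0` and positive irregularity are those of a curve. -/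
def CORE0 : Prop := Sf.ForAll fun {K} _ _ T => T.All → Sf.H0 T.kap = ⊥ → ¬ T.Cech1 0 →
  ∃ (k : IntermediateField ℂ K) (_ : CFF ℂ k) (π : Sf.Pt T.W → Plk ℂ k), Sf.IsPi k π ∧
    ∀ (Q : Type) [AddCommGroup Q] (c : Sf.Pt T.W → Q), Sf.RatOK c →
      ∀ z : Sf.Pt T.W →₀ ℤ, Finsupp.mapDomain π z ∈ prn ℂ k → (z.sum fun x n => n • c x) = 0

namespace Core

theorem pg_of_dict (X : S.PVar) (A κ : S.Div X) (T : Sf.Surf (S.K X)) (e c)
    (h2 : S.dim X = 2) (hD : Sf.Dict X A T.W e c) (hκ : S.IsCanonical κ) (hp : ¬ S.HasSec κ) :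
    Sf.H0 T.kap = ⊥ := by
  have h := T.all
  obtain ⟨hH, g, hg, hK⟩ := Sf.br2 X _ T e c h2 hD h.toLoc h.toCan κ hκ
  rw [eq_bot_iff]
  intro f hf
  by_contra h0
  refine hp ⟨f / g, div_ne_zero h0 hg, (hD.isSec (div_ne_zero h0 hg)).2 fun C => ?_⟩
  have h1 := hf.resolve_left h0 C trivial
  have h3 := Vale.Agent.P297Z.Pl.ord_div C.pl h0 hg
  rw [hK]
  unfold Sf.Crv.ord at *
  omega

theorem good_of {K : Type} [Field K] [Algebra ℂ K] (T : Sf.Surf K) (hpg : Sf.H0 T.kap = ⊥)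
    (hc : T.Cech1 0) : T.Good := by
  have h := T.all
  refine ⟨?_, hpg⟩
  have h1 := (h.cech 0).1 hc
  rw [h1, Sf.h0_zero h.toLoc.toLoc2, sub_zero, Sf.h0_bot hpg, add_zero]

theorem left_of (h : Sf.STAGE1U) (X : S.PVar) (A : S.Div X) (T : Sf.Surf (S.K X)) (e c)
    (hD : Sf.Dict X A T.W e c) (hG : T.Good) (x y : ClosedPt X.X) : RatEquiv X.str x y := by
  obtain ⟨T', π, hG', hK, hπ, hd⟩ := T.blow hG (Sf.inter T.kap T.kap + 12).toNat
  have hR := Sf.rat X T' (c ∘ π) T'.all.toLoc T'.all.multPos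
    (fun y f hf => (hd y).1 ((hD.pt _ f).2 hf))
    (fun y f hf => (hd y).2 f ⟨(hD.pt _ f).2 hf.1, hf.2.imp id fun a b => a ((hD.pt _ _).1 b)⟩)
  obtain ⟨m, hm, h1⟩ := h _ T' T'.all hG' (by omega) _ _ hR
  refine @Vale.Agent.P297.H2.ratEquiv_of_nsmul X.X X.int X.str X.proper m hm (fun u v => ?_) x y
  obtain ⟨p, rfl⟩ := (hD.surj.comp hπ) u
  obtain ⟨q, rfl⟩ := (hD.surj.comp hπ) v
  have h3 := h1 p q
  rw [← map_sub, ← map_nsmul, QuotientAddGroup.mk'_apply, QuotientAddGroup.eq_zero_iff] at h3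
  rwa [natCast_zsmul]

end Core

theorem core_of (h1 : Sf.STAGE1) (h0 : CORE0) : CORE := by
  intro X κ h2 hκ hp
  obtain ⟨A, hA⟩ := X.ample
  obtain ⟨n, W, e, c, hn, hW, hD⟩ := Sf.br1 Sf.model X.toPVar A h2 hA
  obtain ⟨T, rfl⟩ := Sf.nn _ W hW
  have hpg := Core.pg_of_dict X.toPVar _ κ T e c h2 hD hκ hp
  by_cases hc : T.Cech1 0
  · exact Or.inl (Core.left_of (Sf.stage1U_of h1 (Sf.unif Sf.unifA)) X.toPVar _ T e c hD
      (Core.good_of T hpg hc))
  refine Or.inr ?_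
  have h := T.all
  obtain ⟨k, cf, π, hπ, hz⟩ := h0 _ T h hpg hc
  have hinj : Function.Injective c := fun x y hxy =>
    h.pt_ext x y fun f hf => (hD.pt y f).2 (hxy ▸ (hD.pt x f).1 hf)
  let ce : Sf.Pt T.W ≃ ClosedPt X.X := Equiv.ofBijective c ⟨hinj, hD.surj⟩
  have hV : ∀ (x : Sf.Pt T.W) f, x.Van f → S.Van (X := X.toPVar) f (c x).1 := fun x f hf =>
    ⟨(hD.pt _ f).1 hf.1, hf.2.imp id fun a b => a ((hD.pt _ _).2 b)⟩
  have hR := Sf.rat X.toPVar T c h.toLoc h.multPos (fun y f hf => (hD.pt _ f).2 hf)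
    (fun y f hf => ⟨(hD.pt _ f).2 hf.1, hf.2.imp id fun a b => a ((hD.pt _ _).1 b)⟩)
  refine ⟨k, inferInstance, inferInstance, cf, k.val, fun x => π (ce.symm x), ?_, ?_⟩
  · intro x f a hf
    obtain ⟨p, rfl⟩ := ce.surjective x
    simp only [Equiv.symm_apply_apply] at hf
    refine hV p _ ?_
    have h3 : k.val f - S.cst X.toPVar a = ((f - algebraMap ℂ k a : k) : S.K X.toPVar) := rfl
    rw [h3]
    rcases hf with h4 | h4
    · rw [h4]
      exact ⟨zero_mem _, Or.inl rfl⟩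
    · exact (hπ p _).2 (by omega)
  · intro z hz'
    have h3 : Finsupp.mapDomain π (Finsupp.mapDomain ce.symm z) =
        Finsupp.mapDomain (fun x => π (ce.symm x)) z := (Finsupp.mapDomain_comp).symm
    have h4 := hz _ _ hR (Finsupp.mapDomain ce.symm z) (h3 ▸ hz')
    have h5 : z = Finsupp.mapDomain c (Finsupp.mapDomain ce.symm z) := by
      rw [← Finsupp.mapDomain_comp]
      have h6 : c ∘ ce.symm = id := funext fun x => ce.apply_symm_apply x
      rw [h6, Finsupp.mapDomain_id]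
    rw [← QuotientAddGroup.eq_zero_iff, h5, ← QuotientAddGroup.mk'_apply, ← h4,
      Finsupp.mapDomain, Finsupp.sum, Finsupp.sum, map_sum]
    refine Finset.sum_congr rfl fun x _ => ?_
    rw [← map_zsmul, Finsupp.smul_single, smul_eq_mul, mul_one]

end Vale.Agent.P297Y.AJ
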