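import Vale.Agent.P297Y.AJ.Sk
import Vale.Agent.P297.H2.HalfAll

/-! The principal cycles and the centres of places. -/

set_option linter.all false

open IsLocalRing CategoryTheory AlgebraicGeometry

namespace Vale.Agent.P297Y.AJ

open Vale.Agent.P019P P025H816
open Vale.Agent.P297 (Place PlaceOver IsFF ClosedPt ZeroCycle IsPrincipalCycle IsCenter centerMap
  constHom cpt)
open Vale.Agent.P299

namespace Prc

theorem fromSpecStalk_comp {Y : Scheme.{0}} (f : Y ⟶ Spec (.of ℂ)) (y : Y) :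
    Y.fromSpecStalk y ≫ f = Spec.map ((Scheme.ΓSpecIso (.of ℂ)).inv ≫ f.appTop ≫
      Y.presheaf.germ ⊤ y trivial) := by
  rw [Spec.map_comp, Spec.map_comp, ← Scheme.fromSpecStalk_toSpecΓ, Category.assoc,
    Category.assoc, ← Scheme.toSpecΓ_naturality_assoc, ← SpecMap_ΓSpecIso_hom, ← Spec.map_comp,
    Iso.inv_hom_id, Spec.map_id, Category.comp_id]

theorem exists_loc' {Y : Scheme.{0}} {R E : CommRingCat.{0}} [IsLocalRing E]
    (j : R ⟶ E) {x η : Y} (σ : Y.presheaf.stalk x ⟶ R) (τ : Y.presheaf.stalk η ⟶ E)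
    [IsLocalHom τ.hom]
    (hg : Spec.map j ≫ Spec.map σ ≫ Y.fromSpecStalk x = Spec.map τ ≫ Y.fromSpecStalk η) :
    ∃ h : η ⤳ x, σ ≫ j = Y.presheaf.stalkSpecializes h ≫ τ := by
  have h : η ⤳ x := by
    let p : Spec E := closedPoint E
    have h2 : (Spec.map τ ≫ Y.fromSpecStalk η) p = η :=
      (congrArg (fun z : Spec (Y.presheaf.stalk η) => (Y.fromSpecStalk η) z)
        (IsLocalRing.comap_closedPoint τ.hom)).trans Scheme.fromSpecStalk_closedPoint
    have h1 : η ∈ Set.range (Y.fromSpecStalk x) := by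
      refine ⟨(Spec.map j ≫ Spec.map σ) p, ?_⟩
      rw [← Scheme.Hom.comp_apply, Category.assoc, hg, h2]
    rwa [Scheme.range_fromSpecStalk] at h1
  refine ⟨h, ?_⟩
  apply Spec.map_injective
  rw [← cancel_mono (Y.fromSpecStalk x), Spec.map_comp, Spec.map_comp,
    Category.assoc, Category.assoc, hg, Scheme.SpecMap_stalkSpecializes_fromSpecStalk]

/-- the local homomorphism given by a morphism from the spectrum of a valuation ring -/
theorem exists_loc {Y : Scheme.{0}} {E : Type} [Field E] (V : ValuationSubring E)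
    (g : Spec (.of V) ⟶ Y) {η : Y} (τ : Y.presheaf.stalk η →+* E) [IsLocalHom τ]
    (hg : Spec.map (CommRingCat.ofHom (algebraMap V E)) ≫ g =
      Spec.map (CommRingCat.ofHom τ) ≫ Y.fromSpecStalk η)
    {x : Y} (hx : g (closedPoint V) = x) :
    ∃ (h : η ⤳ x) (σ : Y.presheaf.stalk x →+* V), IsLocalHom σ ∧
      ∀ a, (σ a : E) = τ ((Y.presheaf.stalkSpecializes h).hom a) := by
  subst hx
  haveI : IsLocalHom (CommRingCat.ofHom τ).hom := ‹_›
  obtain ⟨h, h1⟩ := exists_loc' (R := .of V) (E := .of E) (CommRingCat.ofHom (algebraMap V E))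
    (Scheme.stalkClosedPointTo (R := .of V) g) (CommRingCat.ofHom τ)
    ((congrArg (_ ≫ ·) (Scheme.Spec_stalkClosedPointTo_fromSpecStalk (R := .of V) g)).trans hg)
  exact ⟨h, (Scheme.stalkClosedPointTo (R := .of V) g).hom, inferInstance,
    fun a => congrArg (fun φ => φ.hom a) h1⟩

/-- the structure morphism -/
noncomputable def str (X : S.PVar) : X.X ⟶ Spec (.of ℂ) := X.str

theorem proper (X : S.PVar) : IsProper (str X) := X.proper

/-- the local ring in the function field -/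
noncomputable def spK (X : S.PVar) (y : X.X) : X.X.presheaf.stalk y →+* S.K X :=
  (S.sp (S.spe_gp (X := X.X) y)).hom

theorem sp_injective {Y : Scheme.{0}} [IsIntegral Y] (y : Y) :
    Function.Injective (algebraMap (Y.presheaf.stalk y) Y.functionField) :=
  IsFractionRing.injective _ _

theorem spK_injective (X : S.PVar) (y : X.X) : Function.Injective (spK X y) :=
  sp_injective (Y := X.X) y

/-- a function which vanishes at `y` is a nonunit of the local ring -/
theorem exists_of_van {X : S.PVar} {y : X.X} {f : S.K X} (h : S.Van f y) :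
    ∃ a, ¬ IsUnit a ∧ spK X y a = f := by
  obtain ⟨⟨a, ha⟩, h⟩ := h
  obtain ⟨a', ha'⟩ : ∃ a', spK X y a' = f := ⟨a, ha⟩
  refine ⟨a', fun hu => ?_, ha'⟩
  obtain ⟨b, hb⟩ := hu.exists_right_inv
  have h1 : f * spK X y b = 1 := by rw [← ha', ← map_mul, hb, map_one]
  rcases h with h | h
  · rw [h, zero_mul] at h1
    exact zero_ne_one h1
  · have h2 : spK X y b = f⁻¹ := eq_inv_of_mul_eq_one_right h1
    exact h ⟨b, h2⟩

/-- the constants in the local ring -/
noncomputable def cstAt (X : S.PVar) (y : X.X) : CommRingCat.of ℂ ⟶ X.X.presheaf.stalk y :=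
  (Scheme.ΓSpecIso (.of ℂ)).inv ≫ (str X).appTop ≫ X.X.presheaf.germ ⊤ y trivial

theorem spK_cstAt (X : S.PVar) (y : X.X) (c : ℂ) :
    spK X y ((cstAt X y).hom c) = algebraMap ℂ (S.K X) c := by
  have h0 : genericPoint X.X ⤳ y := S.spe_gp (X := X.X) y
  have h2 : cstAt X y ≫ X.X.presheaf.stalkSpecializes h0 = cstAt X (genericPoint X.X) := by
    unfold cstAt
    rw [Category.assoc, Category.assoc]
    exact congrArg (fun φ => _ ≫ _ ≫ φ)
      (X.X.presheaf.germ_stalkSpecializes (U := ⊤) (y := y) trivial h0)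
  exact congrArg (fun φ => φ.hom c) h2

theorem spK_sp {X : S.PVar} {η x : X.X} (h : η ⤳ x) (a : X.X.presheaf.stalk x) :
    spK X η ((X.X.presheaf.stalkSpecializes h).hom a) = spK X x a := by
  have h0 : genericPoint X.X ⤳ η := S.spe_gp (X := X.X) η
  exact congrArg (fun φ => φ.hom a) (X.X.presheaf.stalkSpecializes_comp h0 h)

theorem comp_str (X : S.PVar) (η : X.X) {E : Type} [Field E] [Algebra ℂ E]
    (τ : X.X.presheaf.stalk η →+* E) (hc : ∀ c, τ ((cstAt X η).hom c) = algebraMap ℂ E c) :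
    (Spec.map (CommRingCat.ofHom τ) ≫ X.X.fromSpecStalk η) ≫ str X =
      Spec.map (CommRingCat.ofHom (algebraMap ℂ E)) := by
  rw [Category.assoc, fromSpecStalk_comp, ← Spec.map_comp]
  congr 1
  exact CommRingCat.hom_ext (RingHom.ext hc)

theorem cst_of_comp (X : S.PVar) (η : X.X) {E : Type} [Field E] [Algebra ℂ E]
    (τ : X.X.presheaf.stalk η →+* E)
    (h : (Spec.map (CommRingCat.ofHom τ) ≫ X.X.fromSpecStalk η) ≫ str X =
      Spec.map (CommRingCat.ofHom (algebraMap ℂ E))) (c : ℂ) :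
    τ ((cstAt X η).hom c) = algebraMap ℂ E c := by
  rw [Category.assoc, fromSpecStalk_comp, ← Spec.map_comp] at h
  exact congrArg (fun φ => φ.hom c) (Spec.map_injective h)

theorem exists_lift {Y : Scheme.{0}} (f : Y ⟶ Spec (.of ℂ)) [IsProper f] {E : Type} [Field E]
    [Algebra ℂ E] (γ : Spec (.of E) ⟶ Y)
    (hγ : γ ≫ f = Spec.map (CommRingCat.ofHom (algebraMap ℂ E))) (V : ValuationSubring E)
    (hk : ∀ c : ℂ, algebraMap ℂ E c ∈ V) :
    ∃ g : Spec (.of V) ⟶ Y, Spec.map (CommRingCat.ofHom (algebraMap V E)) ≫ g = γ ∧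
      g ≫ f = Spec.map (CommRingCat.ofHom ((algebraMap ℂ E).codRestrict V hk)) := by
  have hv : ValuativeCriterion f := by
    have h : IsProper f := inferInstance
    rw [IsProper.eq_valuativeCriterion] at h
    exact h.1.1.1
  let sq : ValuativeCommSq f :=
    { R := V
      K := E
      i₁ := γ
      i₂ := Spec.map (CommRingCat.ofHom ((algebraMap ℂ E).codRestrict V hk))
      commSq := ⟨by
        rw [hγ, ← Spec.map_comp, ← CommRingCat.ofHom_comp]
        rfl⟩ }
  obtain ⟨⟨⟨g, hg1, hg2⟩⟩, _⟩ := hv sq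
  exact ⟨g, hg1, hg2⟩

theorem prc_aux (X : S.PVar) (η : X.X) {E : Type} [Field E] [Algebra ℂ E] [IsFF ℂ E]
    (τ : X.X.presheaf.stalk η →+* E) [IsLocalHom τ]
    (hγ : (Spec.map (CommRingCat.ofHom τ) ≫ X.X.fromSpecStalk η) ≫ str X =
      Spec.map (CommRingCat.ofHom (algebraMap ℂ E))) (u : E) (hu : u ≠ 0) (z : ZeroCycle X.X)
    (hz : ∀ x : ClosedPt X.X,
      z x = P297.divCoeff (Spec.map (CommRingCat.ofHom τ) ≫ X.X.fromSpecStalk η) u x) :
    ∃ (_ : CFF ℂ E) (ctr : Plk ℂ E → ClosedPt X.X)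
      (O : Subring (S.K X)) (ρ : O →+* E) (D : Plk ℂ E →₀ ℤ), D ∈ prn ℂ E ∧
      z = Finsupp.mapDomain ctr D ∧
      ∀ Q f c, S.HasValue (X := X) f (ctr Q).1 c → ∃ h : f ∈ O, pv Q (ρ ⟨f, h⟩) c := by
  haveI := proper X
  haveI cf : CFF ℂ E := P297.H2.cff _
  set γ := Spec.map (CommRingCat.ofHom τ) ≫ X.X.fromSpecStalk η with hγ'
  let e : PlaceOver ℂ E ≃ Plk ℂ E := Equiv.ofBijective P297.H2.toPlk P297.H2.toPlk_bij
  let i : X.X.presheaf.stalk η ≃+* (spK X η).range := RingEquiv.ofBijective (spK X η).rangeRestrict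
    ⟨fun a b h => spK_injective X η (congrArg Subtype.val h), (spK X η).rangeRestrict_surjective⟩
  let ρ : (spK X η).range →+* E := τ.comp i.symm.toRingHom
  have hρ : ∀ a, ρ ⟨spK X η a, a, rfl⟩ = τ a := fun a => congrArg τ (i.symm_apply_apply a)
  have hc := cst_of_comp X η τ hγ
  refine ⟨cf, fun Q => centerMap (str X) γ hγ (e.symm Q), (spK X η).range, ρ,
    dv ℂ u, ⟨u, hu, rfl⟩, ?_, ?_⟩
  · have h1 : dv ℂ u = Finsupp.mapDomain e (P297.div ℂ u) := by
      ext Q
      obtain ⟨w, rfl⟩ := e.surjective Q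
      rw [Finsupp.mapDomain_apply e.injective, dv_apply, P297.div_apply]
      exact P297.H2.ord_toPlk w u
    have h2 : (fun Q => centerMap (str X) γ hγ (e.symm Q)) ∘ e = centerMap (str X) γ hγ := by
      funext w
      simp only [Function.comp_apply, Equiv.symm_apply_apply]
    rw [h1, ← Finsupp.mapDomain_comp, h2]
    ext x
    rw [hz x]
    exact (P297.pushDiv_apply (str X) γ hγ u x).symm
  · intro Q f c hf
    obtain ⟨w, rfl⟩ := e.surjective Q
    simp only [Equiv.symm_apply_apply] at hf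
    obtain ⟨g, hg, hx⟩ := P297.isCenter_centerMap (str X) γ hγ w
    obtain ⟨h, σ, hσ, hσ'⟩ := exists_loc w.1.ring g τ hg hx
    obtain ⟨a, ha, ha'⟩ := exists_of_van hf
    have h1 : f = spK X η ((X.X.presheaf.stalkSpecializes h).hom a + (cstAt X η).hom c) := by
      rw [map_add, spK_sp, spK_cstAt, ha', S.cst, sub_add_cancel]
    subst h1
    refine ⟨⟨_, rfl⟩, ?_⟩
    unfold pv
    rw [hρ, map_add, hc, add_sub_cancel_right, ← hσ' a]
    by_cases h0 : (σ a : E) = 0
    · exact Or.inl h0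
    · refine Or.inr ?_
      have h3 : ord (e w) (σ a : E) = w.1.ord (σ a) := P297.H2.ord_toPlk w _
      rw [h3]
      refine w.1.ord_pos_of_inv_notMem fun h4 => ha (hσ.map_nonunit a ?_)
      exact IsUnit.of_mul_eq_one ⟨_, h4⟩ (Subtype.ext (mul_inv_cancel₀ h0))

end Prc

open Prc

theorem ctr : CTR := by
  intro X V
  haveI := proper X
  haveI : IsLocalHom (spK X (genericPoint X.X)) := ⟨fun a ha => by
    have hF : IsField (X.X.presheaf.stalk (genericPoint X.X)) :=
      Field.toIsField X.X.functionField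
    by_cases h0 : a = 0
    · rw [h0, map_zero] at ha
      exact absurd ha not_isUnit_zero
    · obtain ⟨b, hb⟩ := hF.mul_inv_cancel h0
      exact IsUnit.of_mul_eq_one b hb⟩
  obtain ⟨g, hg1, hg2⟩ := exists_lift (str X) _
    (comp_str X (genericPoint X.X) (spK X (genericPoint X.X)) (spK_cstAt X _)) V.O V.cst
  have hr : ∀ a : V.O, V.r a ≠ 0 → IsUnit a := by
    intro a ha
    have h0 : (a : S.K X) ≠ 0 := fun h => ha (by
      rw [show a = 0 from Subtype.ext h, map_zero])
    exact IsUnit.of_mul_eq_one ⟨_, V.loc a ha⟩ (Subtype.ext (mul_inv_cancel₀ h0))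
  haveI : IsLocalHom V.r := ⟨fun a ha => hr a ha.ne_zero⟩
  have hp : (Spec.map (CommRingCat.ofHom V.r) ≫ g) ≫ str X = 𝟙 (Spec (.of ℂ)) := by
    have h1 : V.r.comp ((algebraMap ℂ (S.K X)).codRestrict V.O V.cst) = RingHom.id ℂ :=
      RingHom.ext fun c => V.r_cst c
    rw [Category.assoc, hg2, ← Spec.map_comp, ← CommRingCat.ofHom_comp, h1]
    exact Spec.map_id _
  have hx : g (closedPoint V.O) = (cpt (str X) _ hp : X.X) := by
    have h := IsLocalRing.comap_closedPoint V.r
    exact (congrArg (fun z : Spec (.of V.O) => g z) h).symm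
  refine ⟨cpt (str X) _ hp, fun f c hf => ?_⟩
  obtain ⟨h, σ, hσ, hσ'⟩ := exists_loc V.O g (spK X (genericPoint X.X)) hg1 hx
  obtain ⟨a, ha, ha'⟩ := exists_of_van hf
  have h1 : V.r (σ a) = 0 := by
    by_contra h2
    exact ha (hσ.map_nonunit a (hr _ h2))
  have h2 : (σ a : S.K X) = f - S.cst X c := ((hσ' a).trans (spK_sp h a)).trans ha'
  have h3 : V.Val (f - S.cst X c) 0 := h2 ▸ ⟨(σ a).2, h1⟩
  have h4 := h3.add (V.val_cst c)
  rwa [S.cst, sub_add_cancel, zero_add] at h4

theorem prc : PRC := by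
  rintro X z ⟨η, hη, u, hu, hz⟩
  haveI := proper X
  letI alg : Algebra ℂ (X.X.residueField η) :=
    (constHom (str X) (X.X.fromSpecResidueField η)).toAlgebra
  haveI ff : IsFF ℂ (X.X.residueField η) := ⟨P297.essFinite_residue (str X) η, hη⟩
  haveI : IsLocalHom (X.X.residue η).hom :=
    inferInstanceAs (IsLocalHom (IsLocalRing.residue (X.X.presheaf.stalk η)))
  exact ⟨X.X.residueField η, inferInstance, alg, prc_aux X η (E := X.X.residueField η)
    (X.X.residue η).hom (P297.constHom_spec (str X) (X.X.fromSpecResidueField η)).symm u hu z hz⟩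

end Vale.Agent.P297Y.AJ
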