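import Vale.Agent.P297Y.AJ.Wds

/-! The Albanese variety of a surface fibred over a curve; the last block of the chain. -/

set_option linter.all false

namespace Vale.Agent.P297Y.AJ

open Vale.Agent.P009.AV (Par AbVar IsMor)
open Vale.Agent.P019P P025H816
open Vale.Agent.P297 (ClosedPt ZeroCycle Rat RatEquiv IsPrincipalCycle)
open Vale.Agent.P299

theorem rep_plc {k F σ : Type} [Field k] [Field F] [Algebra k F] [CFF k F] {e : Pl k F k}
    {Q : Plk k F} (h : ∀ f c, pv Q f c → e.Val f c) {v : σ → F} {w : σ → k} (hr : e.Rep v w) :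
    (plc Q).Rep v w := by
  obtain ⟨Q', hQ⟩ := exists_plk e
  obtain rfl : Q = Q' := plk_eq h fun f c => (hQ f c).1
  obtain ⟨j, hj, h1⟩ := hr
  exact ⟨j, hj, fun i => (val_plc _ _ _).2 ((hQ _ _).2 (h1 i))⟩

variable {X : S.PVar} {F : Type} [Field F] [Algebra ℂ F] [CFF ℂ F] {i : F →ₐ[ℂ] S.K X}
  {π : ClosedPt X.X → Plk ℂ F} {τ : Type} [Fintype τ]

/-- every place of the curve is the image of a point -/
theorem exists_over (plt : PLT) (ctr : CTR)
    (h : ∀ x f c, pv (π x) f c → S.HasValue (X := X) (i f) x.1 c) (Q : Plk ℂ F) :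
    ∃ (V : Pl ℂ (S.K X) ℂ) (x : ClosedPt X.X), π x = Q ∧
      ∀ f c, S.HasValue (X := X) f x.1 c → V.Val f c := by
  obtain ⟨V, hV⟩ := plt.e2 ℂ (S.K X) F ℂ i (plc Q)
  obtain ⟨x, hx⟩ := ctr X V
  exact ⟨V, x, plk_eq (e := V.comap i) (fun f c h1 => hx _ _ (h x f c h1))
    fun f c h1 => hV f c ((val_plc _ _ _).2 h1), hx⟩

/-- a morphism which is constant on the fibres comes from the curve -/
theorem descent (plt : PLT) (ctr : CTR)
    (h : ∀ x f c, pv (π x) f c → S.HasValue (X := X) (i f) x.1 c) {B : AbVar ℂ τ}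
    {g : Plk ℂ F → B.G} (hg : Mor X B fun x => g (π x)) :
    ∃ φ : τ → F, ∀ Q, (plc Q).Rep φ (B.emb (g Q)).rep := by
  obtain ⟨φ, hφ⟩ := hg
  have h0 : ∀ {V : Pl ℂ (S.K X) ℂ} {x : ClosedPt X.X},
      (∀ f c, S.HasValue (X := X) f x.1 c → V.Val f c) → V.Rep φ (B.emb (g (π x))).rep :=
    fun {V x} hV => (hφ x).elim fun c hc => rep_of_ctr (Projectivization.rep_nonzero _) hc hV
  let t : S.K X →ₐ[ℂ] AlgebraicClosure (S.K X) := IsScalarTower.toAlgHom ℂ _ _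
  have h1 : ∀ V : Pl ℂ (AlgebraicClosure (S.K X)) ℂ, ∃ Q, (∀ f c, pv Q f c → V.Val (t (i f)) c) ∧
      V.Rep (fun a => t (φ a)) (B.emb (g Q)).rep := fun V => by
    obtain ⟨x, hx⟩ := ctr X (V.comap t)
    exact ⟨π x, fun f c h2 => hx _ _ (h x f c h2), (Pl.rep_comap V t _ _).1 (h0 hx)⟩
  have h2 := rat_of plt (t.comp i).fieldRange (fun a => t (φ a)) fun U hU V w w' r r' => by
    obtain ⟨Q, q1, q2⟩ := h1 (U.comp V)
    obtain ⟨Q', q1', q2'⟩ := h1 V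
    obtain rfl : Q = Q' := plk_eq (e := V.comap (t.comp i)) (fun f c h3 => by
      obtain ⟨b, b1, b2⟩ := (Pl.val_comp U V _ _).1 (q1 f c h3)
      rwa [b1.unique (hU _ ⟨f, rfl⟩)] at b2) q1'
    exact Pl.par_trans (r.par q2 (Pl.par_refl _)) (q2'.par r' (Pl.par_refl _)) q2.ne_right
  obtain ⟨Q₀⟩ := nonempty_Plk ℂ F
  obtain ⟨V₀, x₀, -, h3⟩ := exists_over plt ctr h Q₀
  obtain ⟨j, hj⟩ := Function.ne_iff.1 (h0 h3).ne
  have hj' : φ j ≠ 0 := hj
  choose ψ hψ using fun a => h2 a j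
  have h4 : ∀ a, i (ψ a) = (φ j)⁻¹ * φ a := fun a => t.injective (by
    rw [← div_eq_inv_mul]
    exact (hψ a).trans (map_div₀ t _ _).symm)
  refine ⟨ψ, fun Q => ?_⟩
  obtain ⟨V, x, rfl, h5⟩ := exists_over plt ctr h Q
  refine rep_plc (e := V.comap i) (fun f c h6 => h5 _ _ (h x f c h6)) ?_
  refine (Pl.rep_comap V i _ _).2 ((h0 h5).congr_left (Pl.par_of_eq_mul h4) ?_)
  exact Function.ne_iff.2 ⟨j, by rw [h4, inv_mul_cancel₀ hj']; exact one_ne_zero⟩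

/-- The case of a fibration over a curve. -/
theorem alb_fib (plt : PLT) (wdc : WDC) (jac : JAC) (prc : PRC) (ctr : CTR) (x₀ : ClosedPt X.X)
    (h : ∀ x f c, pv (π x) f c → S.HasValue (X := X) (i f) x.1 c)
    (hr : ∀ z : ZeroCycle X.X, Finsupp.mapDomain π z ∈ prn ℂ F → z ∈ Rat X.str) :
    ∃ (ι : Type) (_ : Fintype ι) (A : AbVar ℂ ι) (a : ClosedPt X.X → A.G), IsAlb X x₀ A a ∧
      Function.Surjective (lif a) ∧ ∀ z, dg z = 0 → lif a z = 0 → z ∈ Rat X.str := by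
  obtain ⟨κ, _, A, aj, φ, j1, j2, j3, j4, j5⟩ := jac ℂ F (π x₀)
  have hπ : Function.Surjective π := fun Q => by
    obtain ⟨-, x, hx, -⟩ := exists_over plt ctr h Q
    exact ⟨x, hx⟩
  have hs : Function.Surjective (lif fun x => aj (Finsupp.single (π x) 1)) := fun P => by
    obtain ⟨D, rfl⟩ := j3 P
    obtain ⟨z, rfl⟩ := Finsupp.mapDomain_surjective (M := ℤ) hπ D
    exact ⟨z, (hom_mapDomain aj π z).symm⟩
  refine ⟨κ, inferInstance, A, fun x => aj (Finsupp.single (π x) 1),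
    ⟨⟨fun a => i (φ a), fun x => ?_⟩, j1, fun τ _ B f hf h0 => ?_⟩, hs, fun z h1 h2 => ?_⟩
  · obtain ⟨j, hj, h1⟩ := j4 (π x)
    refine ⟨i (algebraMap ℂ F ((A.emb (aj (Finsupp.single (π x) 1))).rep j) / φ j), fun a => ?_⟩
    rw [← map_mul]
    refine h x _ _ ((val_plc _ _ _).1 ?_)
    have h2 := (Pl.val_cst _ ((A.emb (aj (Finsupp.single (π x) 1))).rep j)).mul (h1 a)
    rwa [Algebra.algebraMap_self_apply, mul_div_cancel₀ _ hj, ← mul_div_assoc,
      ← div_mul_eq_mul_div] at h2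
  · have e : ∀ x, f x = f (Function.surjInv hπ (π x)) := fun x =>
      eq_of_ratEquiv wdc prc hf (hr _ (by
        rw [Finsupp.mapDomain_sub, Finsupp.mapDomain_single, Finsupp.mapDomain_single,
          Function.surjInv_eq hπ, sub_self]
        exact zero_mem _))
    obtain ⟨φ', h1⟩ := descent plt ctr h (g := fun Q => f (Function.surjInv hπ Q))
      (funext e ▸ hf)
    obtain ⟨ψ, m, h2⟩ := j5 τ B φ' _ h1 ((e x₀).symm.trans h0)
    refine ⟨ψ, ⟨m, fun x => (e x).trans (h2 _).symm⟩, fun χ hχ => AddMonoidHom.ext fun P => ?_⟩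
    obtain ⟨z, rfl⟩ := hs P
    rw [hom_lif, hom_lif]
    exact congrArg (fun u => lif u z) (funext fun x => (hχ.2 x).symm.trans ((e x).trans (h2 _).symm))
  · exact hr z (j2 _ ((dg_mapD π z).trans h1) ((hom_mapDomain aj π z).trans h2))

theorem top : B_TOP := by
  intro plt wdc jac prc ctr core X κ h1 h2 h3 x₀
  rcases core X κ h1 h2 h3 with h | ⟨F, _, _, _, i, π, h, hr⟩
  · obtain ⟨a1, a2, a3⟩ := alb_triv wdc prc x₀ h
    exact ⟨⟨_, _, _, _, a1⟩, fun ι _ A a ha => albIso_of wdc prc a1 a2 (fun z hz _ => a3 z hz) ha⟩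
  · obtain ⟨ι, _, A, a, a1, a2, a3⟩ := alb_fib plt wdc jac prc ctr x₀ h hr
    exact ⟨⟨_, _, _, _, a1⟩, fun ι _ A a ha => albIso_of wdc prc a1 a2 a3 ha⟩

end Vale.Agent.P297Y.AJ
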