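import Vale.Agent.P297Y.AJ.Jac
import Vale.Agent.P297Y.AJ.Top
import Vale.Agent.P297Y.AJ.Prc

/-! The conjecture of Bloch from the description of the zero-cycles. -/

namespace Vale.Agent.P297Y.AJ

theorem blochFull_of_core (core : CORE) : BlochFull := top plt (wdc plt) jac prc ctr core

end Vale.Agent.P297Y.AJ
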