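import Vale.Agent.P297Y.AJ.Sk
import Mathlib.FieldTheory.IsAlgClosed.AlgebraicClosure

/-! Independent generic points of a curve. -/

set_option linter.all false

namespace Vale.Agent.P297Y.AJ

open Vale.Agent.P019P P025H816

theorem genb : B_GEN := by
  intro plt bc k F _ _ _ _ _ N
  have : IsAlgClosed k := CFF.ac F
  induction N with
  | zero => exact ⟨k, inferInstance, inferInstance, this, Fin.elim0,
      fun _ => ⟨Pl.ofHom (AlgHom.id k k), fun i => i.elim0⟩⟩
  | succ N ih =>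
    obtain ⟨Ω, _, _, _, σ, hσ⟩ := ih
    obtain ⟨F', _, _, _, j, h⟩ := bc.ex k F Ω
    letI : Algebra k F' := ((algebraMap Ω F').comp (algebraMap k Ω)).toAlgebra
    haveI : IsScalarTower k Ω F' := IsScalarTower.of_algebraMap_eq fun _ => rfl
    let ι : F' →ₐ[k] AlgebraicClosure F' := IsScalarTower.toAlgHom k F' _
    let j' : F →ₐ[k] F' := { j with commutes' := h.comm }
    refine ⟨AlgebraicClosure F', inferInstance, inferInstance, inferInstance,
      Fin.cons (ι.comp j') fun i => ι.comp ((IsScalarTower.toAlgHom k Ω F').comp (σ i)),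
      fun Q => ?_⟩
    obtain ⟨V, hV⟩ := hσ fun i => Q i.succ
    obtain ⟨P, hP, -⟩ := bc.pt k F Ω F' j h ((plc (Q 0)).comp (Pl.ofHom (Algebra.ofId k Ω)))
    obtain ⟨W, hW⟩ := plt.e2 k (AlgebraicClosure F') F' k ι
      ((pull (k := k) (T := Ω) (RingHom.id F') (fun _ => rfl) P).comp V)
    refine ⟨W, fun i => Fin.cases (fun f c hf => hW _ _ ?_) (fun i f c hf => hW _ _ ?_) i⟩
    · exact (Pl.val_comp _ _ _ _).2 ⟨_, (val_pull _ _ _ _ _).2 (hP f _ ((Pl.val_comp _ _ _ _).2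
        ⟨c, (val_plc _ _ _).2 hf, Pl.val_ofHom _ c⟩)), V.val_cst c⟩
    · exact (Pl.val_comp _ _ _ _).2 ⟨_, (val_pull _ _ _ _ _).2 (pv_cst P _), hV i f c hf⟩

end Vale.Agent.P297Y.AJ
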