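import Vale.Agent.P297Y.AJ.W1

/-! Local rings of multiprojective loci. -/

set_option linter.all false

namespace Vale.Agent.P297Y.AJ

open Vale.Agent.P009.AV (Par)
open MvPolynomial Pl

variable {k Ω T σ M : Type} [Field k] [Field Ω] [Field T] [Algebra k Ω] [Algebra k T]
  [AddCommMonoid M]

variable (k) in
/-- The local ring of the locus of `v` at `w`. -/
def HL (wt : σ → M) (v : σ → Ω) (w : σ → T) : Subalgebra k Ω where
  carrier := {f | ∃ (n : M) (p q : MvPolynomial σ k), p.IsWeightedHomogeneous wt n ∧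
    q.IsWeightedHomogeneous wt n ∧ aeval w q ≠ 0 ∧ f * aeval v q = aeval v p}
  mul_mem' := fun ⟨n, p, q, h1, h2, h3, h4⟩ ⟨n', p', q', h1', h2', h3', h4'⟩ =>
    ⟨n + n', p * p', q * q', h1.mul h1', h2.mul h2', by rw [map_mul]; exact mul_ne_zero h3 h3',
      by rw [map_mul, map_mul, ← h4, ← h4']; ring⟩
  add_mem' := fun ⟨n, p, q, h1, h2, h3, h4⟩ ⟨n', p', q', h1', h2', h3', h4'⟩ =>
    ⟨n + n', p * q' + q * p', q * q', (h1.mul h2').add (h2.mul h1'), h2.mul h2',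
      by rw [map_mul]; exact mul_ne_zero h3 h3',
      by rw [map_add, map_mul, map_mul, map_mul, ← h4, ← h4']; ring⟩
  algebraMap_mem' c := ⟨0, C c, 1, isWeightedHomogeneous_C _ _, isWeightedHomogeneous_one _ _,
    by simp, by simp⟩

/-- The place `V` specialises `v` to `w`. -/
def Cmp (V : Pl k Ω T) (wt : σ → M) (v : σ → Ω) (w : σ → T) : Prop :=
  ∀ n, ∃ t t', t' ≠ 0 ∧ ∀ q : MvPolynomial σ k, q.IsWeightedHomogeneous wt n →
    V.Val (aeval v q / t) (aeval w q / t')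

variable {V : Pl k Ω T} {wt : σ → M} {v : σ → Ω} {w : σ → T}

theorem Cmp.inv_mem (h : Cmp V wt v w) {f : Ω} {c : T} (hf : f ∈ HL k wt v w) (hv : V.Val f c)
    (hc : c ≠ 0) : f⁻¹ ∈ HL k wt v w := by
  obtain ⟨n, p, q, h1, h2, h3, h4⟩ := hf
  obtain ⟨t, t', h5, h6⟩ := h n
  refine ⟨n, q, p, h2, h1, ?_, by rw [← h4, inv_mul_cancel_left₀ (hv.ne_zero hc)]⟩
  have h7 := (hv.mul (h6 q h2)).unique (by rw [← mul_div_assoc, h4]; exact h6 p h1)
  exact fun e => mul_ne_zero hc (div_ne_zero h3 h5) (by rw [h7, e, zero_div])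

theorem Cmp.div_mem (h : Cmp V wt v w) {f g : Ω} {c : T} (hf : f ∈ HL k wt v w)
    (hg : g ∈ HL k wt v w) (hv : V.Val g c) (hc : c ≠ 0) : f / g ∈ HL k wt v w := by
  rw [div_eq_mul_inv]
  exact mul_mem hf (h.inv_mem hg hv hc)

/-- Proportionality specialises. -/
theorem Cmp.par (h : Cmp V wt v w) {τ : Type} {z : τ → Ω} {y : τ → T} (hz : V.Rep z y) {n : M}
    {F : τ → MvPolynomial σ k} (hF : ∀ i, (F i).IsWeightedHomogeneous wt n)
    (hp : Par (fun i => aeval v (F i)) z) : Par (fun i => aeval w (F i)) y := fun i l => by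
  obtain ⟨t, t', h5, h6⟩ := h n
  obtain ⟨j, hj, h7⟩ := hz
  have h8 := ((h6 _ (hF i)).mul (h7 l)).unique (by
    have : aeval v (F i) * z l = aeval v (F l) * z i := hp i l
    rw [div_mul_div_comm, this, ← div_mul_div_comm]
    exact (h6 _ (hF l)).mul (h7 i))
  rwa [div_mul_div_comm, div_mul_div_comm, div_left_inj' (mul_ne_zero h5 hj)] at h8

/-- A point with regular affine coordinates is given by polynomials. -/
theorem Cmp.exists_poly (h : Cmp V wt v w) {τ : Type} [Finite τ] {z : τ → Ω} {j : τ}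
    (hj : z j ≠ 0) (hz : ∀ i, z i / z j ∈ HL k wt v w) :
    ∃ (n : M) (F : τ → MvPolynomial σ k), (∀ i, (F i).IsWeightedHomogeneous wt n) ∧
      aeval w (F j) ≠ 0 ∧ Par (fun i => aeval v (F i)) z := by
  classical
  have := Fintype.ofFinite τ
  choose n p q h1 h2 h3 h4 using hz
  have hF : ∀ i, (p i * ∏ l ∈ Finset.univ.erase i, q l).IsWeightedHomogeneous wt (∑ i, n i) :=
    fun i => Finset.add_sum_erase _ n (Finset.mem_univ i) ▸
      (h1 i).mul (IsWeightedHomogeneous.prod _ _ _ fun l _ => h2 l)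
  have hq := IsWeightedHomogeneous.prod Finset.univ q n fun l _ => h2 l
  have e : ∀ i, aeval v (p i * ∏ l ∈ Finset.univ.erase i, q l) =
      z i / z j * aeval v (∏ l, q l) := fun i => by
    rw [← Finset.mul_prod_erase _ q (Finset.mem_univ i), map_mul, map_mul, ← h4, mul_assoc]
  refine ⟨_, _, hF, ?_, fun i l => by simp only [e]; ring⟩
  obtain ⟨t, t', h5, h6⟩ := h (∑ i, n i)
  have h7 := (h6 _ (hF j)).unique (by rw [e, div_self hj, one_mul]; exact h6 _ hq)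
  rw [(div_left_inj' h5).1 h7, map_prod]
  exact Finset.prod_ne_zero_iff.2 fun l _ => h3 l

variable {ι : Type} [Fintype ι]

theorem cmp_one {v : ι → Ω} {w : ι → T} (h : V.Rep v w) : Cmp V (1 : ι → ℕ) v w := fun n => by
  obtain ⟨j, hj⟩ := Function.ne_iff.1 h.ne_right
  exact ⟨_, _, pow_ne_zero n hj, fun q hq => h.val_hom hj hq⟩

theorem aeval_div_hom {R : Type} [Field R] [Algebra k R] (x : ι → R) (c : R)
    {p : MvPolynomial ι k} {n : ℕ} (hp : p.IsHomogeneous n) :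
    aeval (fun i => x i / c) p = aeval x p / c ^ n := by
  have := P009.AV.eval₂_smul_hom (algebraMap k _) hp c⁻¹ x
  rw [aeval_def, aeval_def, div_eq_inv_mul, ← inv_pow, ← this]
  congr 1
  funext i
  simp [div_eq_inv_mul]

/-- The local ring of `u` lies in every local ring that contains the affine coordinates. -/
theorem Cmp.hl_le (h : Cmp V wt v w) {u : ι → Ω} {y : ι → T} (hu : V.Rep u y) {j : ι}
    (hj : y j ≠ 0) (hm : ∀ i, u i / u j ∈ HL k wt v w) : HL k (1 : ι → ℕ) u y ≤ HL k wt v w := by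
  rintro f ⟨n, p, q, h1, h2, h3, h4⟩
  have e : ∀ r : MvPolynomial ι k, r.IsHomogeneous n → aeval u r / u j ^ n ∈ HL k wt v w :=
    fun r hr => by
      rw [← aeval_div_hom u _ hr]
      exact Algebra.adjoin_le (Set.range_subset_iff.2 hm)
        (by rw [Algebra.adjoin_range_eq_range_aeval]; exact ⟨r, rfl⟩)
  have h5 := hu.val_hom hj h2
  have h6 := div_ne_zero h3 (pow_ne_zero n hj)
  have h7 := h.div_mem (e p h1) (e q h2) h5 h6
  rwa [← h4, mul_div_assoc, mul_div_cancel_right₀ _ (h5.ne_zero h6)] at h7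

theorem div_mem_one (u : ι → Ω) {y : ι → T} {j : ι} (hu : u j ≠ 0) (hj : y j ≠ 0) (i : ι) :
    u i / u j ∈ HL k (1 : ι → ℕ) u y :=
  ⟨1, X i, X j, isHomogeneous_X _ _, isHomogeneous_X _ _, by simpa using hj, by simp [hu]⟩

/-- The bidegree. -/
def wt2 (ι : Type) : ι ⊕ ι → ℕ × ℕ := Sum.elim (fun _ => (1, 0)) fun _ => (0, 1)

theorem bihom_of {g : MvPolynomial (ι ⊕ ι) k} {n : ℕ × ℕ}
    (h : g.IsWeightedHomogeneous (wt2 ι) n) :
    ∀ m ∈ g.support, ∑ j, m (Sum.inl j) = n.1 ∧ ∑ j, m (Sum.inr j) = n.2 := fun m hm => by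
  rw [← h (mem_support_iff.1 hm), Finsupp.weight_apply, Finsupp.sum_fintype _ _ (by simp)]
  simp [wt2, Fintype.sum_sum_type, Prod.fst_sum, Prod.snd_sum]

theorem aeval_div_bihom {R : Type} [Field R] [Algebra k R] (x x' : ι → R) (c c' : R)
    {p : MvPolynomial (ι ⊕ ι) k} {n : ℕ × ℕ} (hp : p.IsWeightedHomogeneous (wt2 ι) n) :
    aeval (Sum.elim (fun i => x i / c) fun i => x' i / c') p =
      aeval (Sum.elim x x') p / (c ^ n.1 * c' ^ n.2) := by
  have := P009.AV.eval₂_smul_bihom (algebraMap k _) (bihom_of hp) c⁻¹ c'⁻¹ x x'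
  rw [aeval_def, aeval_def, div_eq_inv_mul, mul_inv, ← inv_pow, ← inv_pow, ← this]
  congr 2 <;> funext i <;> simp [div_eq_inv_mul]

theorem cmp_two {v v' : ι → Ω} {w w' : ι → T} (h : V.Rep v w) (h' : V.Rep v' w') :
    Cmp V (wt2 ι) (Sum.elim v v') (Sum.elim w w') := fun n => by
  obtain ⟨j, hj, h1⟩ := h
  obtain ⟨j', hj', h1'⟩ := h'
  refine ⟨v j ^ n.1 * v' j' ^ n.2, w j ^ n.1 * w' j' ^ n.2,
    mul_ne_zero (pow_ne_zero _ hj) (pow_ne_zero _ hj'), fun q hq => ?_⟩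
  rw [← aeval_div_bihom _ _ _ _ hq, ← aeval_div_bihom _ _ _ _ hq]
  exact val_aeval (fun s => by cases s <;> simp [h1, h1']) q

theorem div_mem_inl (u u' : ι → Ω) {y y' : ι → T} {j : ι} (hu : u j ≠ 0) (hj : y j ≠ 0) (i : ι) :
    u i / u j ∈ HL k (wt2 ι) (Sum.elim u u') (Sum.elim y y') :=
  ⟨(1, 0), X (Sum.inl i), X (Sum.inl j), isWeightedHomogeneous_X _ _ _,
    isWeightedHomogeneous_X _ _ _, by simpa using hj, by simp [hu]⟩

theorem div_mem_inr (u u' : ι → Ω) {y y' : ι → T} {j : ι} (hu : u' j ≠ 0) (hj : y' j ≠ 0)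
    (i : ι) : u' i / u' j ∈ HL k (wt2 ι) (Sum.elim u u') (Sum.elim y y') :=
  ⟨(0, 1), X (Sum.inr i), X (Sum.inr j), isWeightedHomogeneous_X _ _ _,
    isWeightedHomogeneous_X _ _ _, by simpa using hj, by simp [hu]⟩

end Vale.Agent.P297Y.AJ
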