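import Vale.Agent.P297Y.AJ.Sk2

/-! The Jacobian from the group of divisor classes with its generic point. -/

set_option linter.all false

namespace Vale.Agent.P297Y.AJ

open Vale.Agent.P009.AV (Par AbVar IsMor)
open Vale.Agent.P019P P025H816

theorem rep_of_vals {k F Ω ι : Type} [Field k] [Field F] [Field Ω] [Algebra k F] [Algebra k Ω]
    {e : Pl k F k} {V : Pl k Ω k} {s : F →ₐ[k] Ω} (h : ∀ f c, e.Val f c → V.Val (s f) c)
    {φ : ι → F} {w : ι → k} (hr : e.Rep φ w) : V.Rep (fun i => s (φ i)) w := by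
  obtain ⟨j, hj, h1⟩ := hr
  exact ⟨j, hj, fun i => by rw [← map_div₀]; exact h _ _ (h1 i)⟩

theorem jac2 : B_JAC2 := by
  intro plt jw weil wdc red k F _ _ _ _ _ P₀
  haveI : IsAlgClosed k := CFF.ac (F := F)
  obtain ⟨Ω, G, G', ι, _, _, _, _, _, _, W, cl, pt, g, σ, ⟨s₀⟩, h0, hker, hsurj, hα, hsp⟩ :=
    jw k F P₀
  obtain ⟨κ, _, A, e, y, hy, hmor⟩ := weil k Ω G G' ι W
  choose Q hQ using fun (s : F →ₐ[k] Ω) (V : Pl k Ω k) => exists_plk (V.comap s)
  have hQ' : ∀ s V f c, pv (Q s V) f c → V.Val (s f) c := fun s V f c h => (hQ s V f c).1 h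
  have hpt : ∀ s V, W.sp V (pt s) = cl (Finsupp.single (Q s V) 1) := fun s V =>
    hsp s V _ (hQ' s V)
  obtain ⟨V₀, -⟩ := W.gen 0 0
  obtain ⟨j₀, hj₀⟩ := Function.ne_iff.1 (hy V₀ (pt s₀)).ne
  have hrat : ∀ i, y (pt s₀) i / y (pt s₀) j₀ ∈ s₀.fieldRange := fun i => by
    refine rat_of plt _ _ (fun U hU V w w' h1 h2 => ?_) i j₀
    have h3 : Q s₀ (U.comp V) = Q s₀ V := plk_eq (e := (U.comp V).comap s₀)
      (fun f c h => (hQ _ _ f c).1 h) fun f c h =>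
        (Pl.val_comp U V _ c).2 ⟨s₀ f, hU _ ⟨f, rfl⟩, hQ' _ _ f c h⟩
    have h4 := hy (U.comp V) (pt s₀)
    have h5 := hy V (pt s₀)
    rw [hpt, h3] at h4
    rw [hpt] at h5
    exact Pl.par_trans (h1.par h4 (Pl.par_refl _)) (h5.par h2 (Pl.par_refl _)) h5.ne_right
  choose φ hφ using hrat
  have hφ' : ∀ i, s₀ (φ i) = y (pt s₀) i / y (pt s₀) j₀ := hφ
  have hφ0 : φ ≠ 0 := Function.ne_iff.2 ⟨j₀, fun h => by
    have h1 := hφ' j₀
    rw [h, div_self hj₀, Pi.zero_apply, map_zero] at h1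
    exact zero_ne_one h1⟩
  have hsur : Function.Surjective (e.toAddMonoidHom.comp cl) := e.surjective.comp hsurj
  refine ⟨κ, inferInstance, A, e.toAddMonoidHom.comp cl, φ, ?_, fun D h1 h2 => ?_, hsur,
    fun P => ?_, fun τ _ B φ' f hf hf0 => ?_⟩
  · change e (cl _) = 0
    rw [h0, map_zero]
  · exact hker D h1 (e.map_eq_zero_iff.1 h2)
  · obtain ⟨V, hV⟩ := plt.e2 k Ω F k s₀ (plc P)
    have h1 := hy V (pt s₀)
    rw [hsp s₀ V P fun f c h => hV f c ((val_plc P f c).2 h)] at h1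
    obtain ⟨w, hw⟩ := (plc P).exists_rep hφ0
    refine hw.congr_right ((rep_of_vals hV hw).par h1
      (Pl.par_of_eq_mul (c := y (pt s₀) j₀) fun i => ?_)) h1.ne_right
    rw [hφ', mul_div_cancel₀ _ hj₀]
  let ψ₀ : (Plk k F →₀ ℤ) →+ B.G := Finsupp.liftAddHom fun P => zmultiplesHom B.G (f P)
  have hs : ∀ P n, ψ₀ (Finsupp.single P n) = n • f P := fun P n =>
    Finsupp.liftAddHom_apply_single _ P n
  have hk : (e.toAddMonoidHom.comp cl).ker ≤ ψ₀.ker := fun D hD => by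
    have h1 : cl D = 0 := e.map_eq_zero_iff.1 hD
    have h2 : D - Finsupp.single P₀ (dg D) ∈ prn k F := by
      refine hker _ (by rw [map_sub, dg_sgl, sub_self]) ?_
      rw [map_sub, h1, ← mul_one (dg D), ← smul_eq_mul, ← Finsupp.smul_single, map_zsmul, h0,
        smul_zero, sub_self]
    have h3 : ψ₀ (D - Finsupp.single P₀ (dg D)) = 0 := wdc k F τ B φ' f hf _ h2
    rw [map_sub, hs, hf0, smul_zero, sub_zero] at h3
    exact h3
  let ψ : A.G →+ B.G := (e.toAddMonoidHom.comp cl).liftOfRightInverse _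
    (Function.rightInverse_surjInv hsur) ⟨ψ₀, hk⟩
  have hψ : ∀ P, ψ (e (cl (Finsupp.single P 1))) = f P := fun P => by
    have h1 : ψ (e (cl (Finsupp.single P 1))) = ψ₀ (Finsupp.single P 1) :=
      (e.toAddMonoidHom.comp cl).liftOfRightInverse_comp_apply _
        (Function.rightInverse_surjInv hsur) ⟨ψ₀, hk⟩ _
    rw [h1, hs, one_smul]
  have hz : ∀ i (V : Pl k Ω k), V.Rep (fun j => σ i (φ' j)) (B.emb (f (Q (σ i) V))).rep :=
    fun i V => rep_of_vals (fun f c h => hQ' _ V f c ((val_plc _ f c).1 h)) (hf _)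
  obtain ⟨y', hy'⟩ := red k Ω τ B g (fun i j => σ i (φ' j)) fun i V => ⟨_, hz i V⟩
  refine ⟨ψ, hmor τ B ψ y' fun V => ?_, hψ⟩
  have h1 : ψ (e (W.sp V W.α₁)) = ∑ i, f (Q (σ i) V) := by
    rw [hα, map_sum, map_sum, map_sum]
    exact Finset.sum_congr rfl fun i _ => by rw [hpt, hψ]
  rw [h1]
  exact hy' V _ fun i => hz i V

end Vale.Agent.P297Y.AJ
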