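import Vale.Agent.P297Y.AJ.Sk

/-! The embedding of the class group of a curve in projective space. -/

set_option linter.all false

namespace Vale.Agent.P297Y.AJ

open Vale.Agent.P009.AV (Par)
open Vale.Agent.P019P P025H816

namespace ThAux

/-! ### Algebra -/

theorem eval_alg {R : Type} [CommRing R] {n m : ℕ}
    (lam : (Fin n → Fin n) → Fin n → Fin m → R) (A B : Matrix (Fin n) (Fin n) R)
    (E : Fin n → Fin m → R)
    (h : ∀ i i' j, (∏ l, A (i l) j) * B i' j = ∑ a, lam i i' a * E j a) :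
    ∑ a, phiF lam a * ∏ j, E j (a j) = A.det ^ n * B.det := by
  have h1 : ∀ (σ : Fin n → Equiv.Perm (Fin n)) (τ : Equiv.Perm (Fin n)),
      ∑ a : Fin n → Fin m, (∏ j, lam (fun l => σ l j) (τ j) (a j)) * ∏ j, E j (a j) =
        (∏ l, ∏ j, A (σ l j) j) * ∏ j, B (τ j) j := by
    intro σ τ
    rw [Finset.prod_comm, ← Finset.prod_mul_distrib]
    simp only [← Finset.prod_mul_distrib]
    have h2 := Finset.prod_univ_sum (fun _ : Fin n => (Finset.univ : Finset (Fin m)))
      (fun j a => lam (fun l => σ l j) (τ j) a * E j a)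
    rw [Fintype.piFinset_univ] at h2
    rw [← h2]
    exact Finset.prod_congr rfl fun j _ => (h _ _ j).symm
  have h3 : A.det ^ n = ∑ σ : Fin n → Equiv.Perm (Fin n),
      ∏ l, (((Equiv.Perm.sign (σ l) : ℤˣ) : ℤ) : R) * ∏ j, A (σ l j) j := by
    have h2 := Finset.prod_univ_sum (fun _ : Fin n => (Finset.univ : Finset (Equiv.Perm (Fin n))))
      (fun _ σ => (((Equiv.Perm.sign σ : ℤˣ) : ℤ) : R) * ∏ j, A (σ j) j)
    rw [Fintype.piFinset_univ] at h2
    rw [← h2, Finset.prod_const, Finset.card_univ, Fintype.card_fin, Matrix.det_apply']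
  rw [h3, Matrix.det_apply' B, Finset.sum_mul_sum]
  unfold phiF
  simp only [Finset.sum_mul]
  rw [Finset.sum_comm]
  refine Finset.sum_congr rfl fun σ _ => ?_
  rw [Finset.sum_comm]
  refine Finset.sum_congr rfl fun τ _ => ?_
  simp only [mul_assoc]
  rw [← Finset.mul_sum, h1, Finset.prod_mul_distrib]
  push_cast
  ring

theorem indep_alg {R X : Type} [CommRing R] {m : ℕ} (E : X → Fin m → R)
    (h : ∀ c : Fin m → R, (∀ x, ∑ a, c a * E x a = 0) → c = 0) (n : ℕ)
    (c : (Fin n → Fin m) → R) (hc : ∀ x : Fin n → X, ∑ a, c a * ∏ j, E (x j) (a j) = 0) :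
    c = 0 := by
  induction n with
  | zero =>
    funext a
    have h1 := hc Fin.elim0
    rw [Fintype.sum_unique] at h1
    simpa [Subsingleton.elim a default] using h1
  | succ n ih =>
    funext a
    have h1 : ∀ y : Fin n → X,
        (fun b : Fin m => ∑ a' : Fin n → Fin m, c (Fin.cons b a') * ∏ j, E (y j) (a' j)) = 0 := by
      intro y
      refine h _ fun x => ?_
      rw [← hc (Fin.cons x y), ← (Fin.consEquiv fun _ : Fin (n + 1) => Fin m).sum_comp,
        Fintype.sum_prod_type]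
      refine Finset.sum_congr rfl fun b _ => ?_
      rw [Finset.sum_mul]
      refine Finset.sum_congr rfl fun a' _ => ?_
      rw [Fin.prod_univ_succ]
      change _ = c (Fin.cons b a') * (E x b * ∏ j, E (y j) (a' j))
      ring
    have h2 := congrFun (ih (fun a' => c (Fin.cons (a 0) a')) fun y => congrFun (h1 y) (a 0))
      (Fin.tail a)
    rw [Fin.cons_self_tail] at h2
    exact h2

/-! ### Leading coefficients -/

variable {T F : Type} [Field T] [Field F] [Algebra T F] [CFF T F]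

/-- A uniformiser. -/
noncomputable def uf (x : Plk T F) : F := (exists_unif x).choose

theorem uf_spec (x : Plk T F) : uf x ≠ 0 ∧ ord x (uf x) = 1 := (exists_unif x).choose_spec

theorem mem_uf (x : Plk T F) (n : ℤ) (u : F) : u * uf x ^ n ∈ Mge x 0 ↔ u ∈ Mge x (-n) := by
  have h := uf_spec x
  rw [mul_comm, mul_mem_Mge_iff (zpow_ne_zero n h.1), ord_zpow, h.2, mul_one, zero_sub]

theorem exists_ev (x : Plk T F) (n : ℤ) :
    ∃ φ : F →ₗ[T] T, ∀ u ∈ Mge x (-n), pv x (u * uf x ^ n) (φ u) := by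
  have e : ∀ u : Mge x (-n), ∃ c, pv x (u * uf x ^ n) c := fun u =>
    exists_pv ((mem_iff_ord x _).2 ((mem_uf x n u).2 u.2))
  choose φ hφ using e
  let ψ : Mge x (-n) →ₗ[T] T :=
    { toFun := φ
      map_add' := fun u v => pv_unique (hφ _) (by
        rw [Submodule.coe_add, add_mul]
        exact pv_add (hφ u) (hφ v))
      map_smul' := fun a u => pv_unique (hφ _) (by
        rw [Submodule.coe_smul, Algebra.smul_def, mul_assoc]
        exact pv_mul (pv_cst x a) (hφ u)) }
  obtain ⟨χ, hχ⟩ := LinearMap.exists_extend ψ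
  exact ⟨χ, fun u hu => (DFunLike.congr_fun hχ ⟨u, hu⟩).symm ▸ hφ ⟨u, hu⟩⟩

/-- The leading coefficient. -/
noncomputable def ev (x : Plk T F) (n : ℤ) : F →ₗ[T] T := (exists_ev x n).choose

theorem ev_pv {x : Plk T F} {n : ℤ} {u : F} (hu : u ∈ Mge x (-n)) :
    pv x (u * uf x ^ n) (ev x n u) := (exists_ev x n).choose_spec u hu

theorem ev_eq {x : Plk T F} {n : ℤ} {u : F} {c : T} (h : pv x (u * uf x ^ n) c) :
    u ∈ Mge x (-n) ∧ ev x n u = c :=
  have h1 := (mem_uf x n u).1 ((mem_iff_ord x _).1 (pv_mem h))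
  ⟨h1, pv_unique (ev_pv h1) h⟩

theorem ev_zero {x : Plk T F} {n : ℤ} {u : F} (hu : u ∈ Mge x (-n)) (h0 : u ≠ 0)
    (h : ev x n u = 0) : 1 ≤ n + ord x u := by
  have h1 := ev_pv hu
  have h2 := uf_spec x
  rw [h, pv, map_zero, sub_zero, mul_comm, mul_mem_Mge_iff (zpow_ne_zero n h2.1), ord_zpow,
    h2.2] at h1
  have := h1.resolve_left h0
  omega

theorem ev_prod {x : Plk T F} {a b : ℤ} {n : ℕ} {s : Fin n → F} {t : F}
    (hs : ∀ l, s l ∈ Mge x (-a)) (ht : t ∈ Mge x (-b)) :
    (∏ l, s l) * t ∈ Mge x (-(n * a + b)) ∧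
      ev x (n * a + b) ((∏ l, s l) * t) = (∏ l, ev x a (s l)) * ev x b t := by
  refine ev_eq ?_
  have h1 : pv x (∏ l, s l * uf x ^ a) (∏ l, ev x a (s l)) :=
    Finset.prod_hom_rel (r := pv x) (by simpa using pv_cst x 1)
      fun l _ _ h => pv_mul (ev_pv (hs l)) h
  have h2 := pv_mul h1 (ev_pv ht)
  have h0 : uf x ≠ 0 := (uf_spec x).1
  rw [Finset.prod_mul_distrib, Finset.prod_const, Finset.card_univ, Fintype.card_fin,
    ← zpow_natCast, ← zpow_mul] at h2
  rw [zpow_add₀ h0, mul_comm (n : ℤ) a, mul_mul_mul_comm]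
  exact h2

theorem infinite_plk : Infinite (Plk T F) := by
  have : IsAlgClosed T := CFF.ac (k := T) (F := F)
  obtain ⟨z, hz, -⟩ := CFF.ex (k := T) (F := F)
  have h1 : ∀ a : T, z ≠ algebraMap T F a := fun a h => hz (h ▸ isAlgebraic_algebraMap a)
  choose P hP using fun c : T => exists_zero (nc_sub h1 c)
  have h2 : ∀ c, pv (P c) z c := fun c => Or.inr (hP c)
  exact Infinite.of_injective P fun c d h => pv_unique (h2 c) (h ▸ h2 d)

theorem zeros_sub {D : Plk T F →₀ ℤ} {f : F} (hf : f ∈ LL T D) (h0 : f ≠ 0) {x : Plk T F}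
    (h : ev x (D x) f = 0) : x ∈ (D + dv T f).support := by
  have := ev_zero (mem_LL_iff.1 hf x) h0 h
  rw [Finsupp.mem_support_iff, Finsupp.add_apply, dv_apply]
  omega

theorem eq_zero_of_ev {D : Plk T F →₀ ℤ} {f : F} (hf : f ∈ LL T D)
    (h : ∀ x, ev x (D x) f = 0) : f = 0 := by
  by_contra h0
  have := infinite_plk (T := T) (F := F)
  obtain ⟨x, hx⟩ := Infinite.exists_notMem_finset (D + dv T f).support
  exact hx (zeros_sub hf h0 (h x))

/-- The matrix of leading coefficients. -/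
noncomputable def evm (D : Plk T F →₀ ℤ) {n : ℕ} (s : Fin n → F) (x : Fin n → Plk T F) :
    Matrix (Fin n) (Fin n) T := Matrix.of fun i j => ev (x j) (D (x j)) (s i)

theorem lap (D : Plk T F →₀ ℤ) {n : ℕ} (s : Fin (n + 1) → F) (y : Fin n → Plk T F) :
    ∃ c : Fin (n + 1) → T, c 0 = (evm D (fun i => s i.succ) y).det ∧
      ∀ x, (evm D s (Fin.cons x y)).det = ev x (D x) (∑ i, c i • s i) := by
  refine ⟨fun i => (-1) ^ (i : ℕ) * (evm D (fun a => s (i.succAbove a)) y).det, by simp,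
    fun x => ?_⟩
  rw [Matrix.det_succ_column_zero, map_sum]
  refine Finset.sum_congr rfl fun i _ => ?_
  rw [map_smul, smul_eq_mul, mul_right_comm]
  rfl

theorem exists_det_ne {ι : Type} [Fintype ι] (D : ι → Plk T F →₀ ℤ) (n : ℕ) (s : ι → Fin n → F)
    (hs : ∀ r i, s r i ∈ LL T (D r)) (hi : ∀ r, LinearIndependent T (s r)) :
    ∃ x : Fin n → Plk T F, ∀ r, (evm (D r) (s r) x).det ≠ 0 := by
  classical
  induction n with
  | zero => exact ⟨Fin.elim0, fun r => by simp⟩
  | succ n ih =>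
    obtain ⟨y, hy⟩ := ih (fun r i => s r i.succ) (fun r i => hs r _)
      fun r => (hi r).comp _ (Fin.succ_injective n)
    choose c hc0 hc using fun r => lap (D r) (s r) y
    have := infinite_plk (T := T) (F := F)
    obtain ⟨x, hx⟩ := Infinite.exists_notMem_finset
      (Finset.univ.biUnion fun r => (D r + dv T (∑ i, c r i • s r i)).support)
    refine ⟨Fin.cons x y, fun r h => hx (Finset.mem_biUnion.2 ⟨r, Finset.mem_univ r, ?_⟩)⟩
    refine zeros_sub (Submodule.sum_mem _ fun i _ => Submodule.smul_mem _ _ (hs r i))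
      (fun h0 => hy r ?_) (hc r x ▸ h)
    rw [← hc0]
    exact Fintype.linearIndependent_iff.1 (hi r) _ h0 0

theorem key {D : Plk T F →₀ ℤ} {n : ℕ} {s : Fin (n + 1) → F} (hs : ∀ i, s i ∈ LL T D)
    {x₀ : Plk T F} {y : Fin n → Plk T F} (h : (evm D s (Fin.cons x₀ y)).det ≠ 0) :
    ∃ f : F, f ≠ 0 ∧ f ∈ LL T D ∧ (∀ x, (evm D s (Fin.cons x y)).det = ev x (D x) f) ∧
      0 ≤ D + dv T f - ∑ j, Finsupp.single (y j) 1 := by
  classical
  obtain ⟨c, -, hc⟩ := lap D s y
  have hf : ∑ i, c i • s i ∈ LL T D :=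
    Submodule.sum_mem _ fun i _ => Submodule.smul_mem _ _ (hs i)
  have h0 : ∑ i, c i • s i ≠ 0 := fun h0 => h (by rw [hc, h0, map_zero])
  refine ⟨_, h0, hf, hc, fun P => ?_⟩
  rw [Finsupp.zero_apply, Finsupp.sub_apply, Finsupp.add_apply, dv_apply, Finsupp.finsetSum_apply]
  by_cases hP : ∃ j, y j = P
  · obtain ⟨j, rfl⟩ := hP
    rw [Finset.sum_eq_single j (fun b _ hb => Finsupp.single_eq_of_ne' fun e => h
      (Matrix.det_zero_of_column_eq ((Fin.succ_injective n).ne hb) fun i => by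
        simp [evm, e])) (by simp), Finsupp.single_eq_same]
    have := ev_zero (mem_LL_iff.1 hf (y j)) h0 (by
      rw [← hc]
      exact Matrix.det_zero_of_column_eq (Fin.succ_ne_zero j) fun i => by simp [evm])
    omega
  · rw [Finset.sum_eq_zero fun j _ => Finsupp.single_eq_of_ne' fun e => hP ⟨j, e⟩]
    have := (mem_LL.1 hf).resolve_left h0 P
    omega

theorem eval {D₁ D₂ M : Plk T F →₀ ℤ} {n m : ℕ} (hM : ∀ P, M P = n * D₁ P + D₂ P)
    {s t : Fin n → F} {e : Fin m → F} {lam : (Fin n → Fin n) → Fin n → Fin m → T}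
    (hs : ∀ i, s i ∈ LL T D₁) (ht : ∀ i, t i ∈ LL T D₂)
    (h : ∀ i i', (∏ l, s (i l)) * t i' = ∑ a, lam i i' a • e a) (x : Fin n → Plk T F) :
    ∑ a, phiF lam a * ∏ j, ev (x j) (M (x j)) (e (a j)) =
      (evm D₁ s x).det ^ n * (evm D₂ t x).det := by
  refine eval_alg lam _ _ (fun j a => ev (x j) (M (x j)) (e a)) fun i i' j => ?_
  have h1 := (ev_prod (fun l => mem_LL_iff.1 (hs (i l)) (x j)) (mem_LL_iff.1 (ht i') (x j))).2
  rw [← hM, h, map_sum] at h1
  simp only [map_smul, smul_eq_mul] at h1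
  exact h1.symm

theorem det_change {D : Plk T F →₀ ℤ} {n : ℕ} {s s' : Fin n → F}
    (h : ∀ i, s i ∈ Submodule.span T (Set.range s')) :
    ∃ κ : T, ∀ x, (evm D s x).det = κ * (evm D s' x).det := by
  choose A hA using fun i => (Submodule.mem_span_range_iff_exists_fun T).1 (h i)
  refine ⟨(Matrix.of A).det, fun x => ?_⟩
  rw [← Matrix.det_mul]
  congr 1
  ext i j
  simp [evm, Matrix.mul_apply, ← hA]

theorem bas_mem {ι : Type} {W : Submodule T F} {b : ι → F} (h : IsBas W b) (i : ι) : b i ∈ W :=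
  h.2 ▸ Submodule.subset_span ⟨i, rfl⟩

theorem exists_bas {D : Plk T F →₀ ℤ} (h : dg D = 2 * gen T F) :
    ∃ s : Fin (gen T F + 1) → F, IsBas (LL T D) s := by
  have h1 := RR (k := T) (F := F) 0
  have h2 := RR (can T F)
  rw [sub_zero, l_zero, map_zero] at h1
  rw [sub_self, l_zero] at h2
  have h3 := RR_large (D := D) (by omega)
  let b := Module.finBasisOfFinrankEq T (LL T D) (n := gen T F + 1) (by omega)
  refine ⟨(LL T D).subtype ∘ b, b.linearIndependent.map' _ (Submodule.ker_subtype _), ?_⟩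
  rw [Set.range_comp, Submodule.span_image, b.span_eq, Submodule.map_subtype_top]

theorem le_dg {X : Type} {E : X →₀ ℤ} (h : 0 ≤ E) (P : X) : E P ≤ dg E := by
  rw [← dg_sgl P (E P)]
  refine dg_mono fun Q => ?_
  by_cases hQ : P = Q
  · rw [hQ, Finsupp.single_eq_same]
  · rw [Finsupp.single_eq_of_ne' hQ]
    exact h Q

theorem div_eq {g a b a' b' : ℤ} (h : (g + 1) * a + b = (g + 1) * a' + b') (h1 : 0 ≤ b)
    (h2 : b ≤ g) (h3 : 0 ≤ b') (h4 : b' ≤ g) : a = a' := by
  rcases lt_trichotomy a a' with h5 | h5 | h5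
  · nlinarith
  · exact h5
  · nlinarith

end ThAux

open ThAux

theorem th : TH := by
  intro T F _ _ _ _ g m P₀ e hg he
  subst hg
  generalize hM : (Finsupp.single P₀ (((gen T F + 2) * (2 * gen T F) : ℕ) : ℤ)) = M at he
  have hM1 : ∀ (D : Plk T F →₀ ℤ) P, M P = ((gen T F + 1 : ℕ) : ℤ) *
      (D + Finsupp.single P₀ (2 * gen T F : ℤ)) P +
      (-((gen T F + 1 : ℤ) • D) + Finsupp.single P₀ (2 * gen T F : ℤ)) P := by
    classical
    intro D P
    rw [← hM]
    simp only [Finsupp.add_apply, Finsupp.neg_apply, Finsupp.smul_apply, Finsupp.single_apply,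
      smul_eq_mul]
    push_cast
    split_ifs <;> ring
  have hd1 : ∀ D : Plk T F →₀ ℤ, dg D = 0 →
      dg (D + Finsupp.single P₀ (2 * gen T F : ℤ)) = 2 * gen T F := fun D hD => by
    rw [map_add, hD, dg_sgl, zero_add]
  have hd2 : ∀ D : Plk T F →₀ ℤ, dg D = 0 →
      dg (-((gen T F + 1 : ℤ) • D) + Finsupp.single P₀ (2 * gen T F : ℤ)) = 2 * gen T F :=
    fun D hD => hd1 _ (by rw [map_neg, map_zsmul, hD, smul_zero, neg_zero])
  have hne : ∀ D c, dg D = 0 → IsPhi (gen T F) P₀ e D c → c ≠ 0 := by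
    rintro D c - ⟨s, t, lam, hs, ht, hl, rfl⟩ h0
    obtain ⟨x, hx⟩ := exists_det_ne ![_, _] _ ![s, t]
      (Fin.forall_fin_two.2 ⟨bas_mem hs, bas_mem ht⟩) (Fin.forall_fin_two.2 ⟨hs.1, ht.1⟩)
    have h1 := eval (hM1 D) (bas_mem hs) (bas_mem ht) hl x
    rw [h0] at h1
    exact mul_ne_zero (pow_ne_zero _ (hx 0)) (hx 1) (h1.symm.trans (by simp))
  refine ⟨fun D hD => ?_, hne, fun D D' c c' hD hD' hc hc' => ?_⟩
  · obtain ⟨s, hs⟩ := exists_bas (hd1 D hD)
    obtain ⟨t, ht⟩ := exists_bas (hd2 D hD)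
    have h1 : ∀ (i : Fin (gen T F + 1) → Fin (gen T F + 1)) i',
        (∏ l, s (i l)) * t i' ∈ Submodule.span T (Set.range e) := fun i i' => by
      rw [he.2, mem_LL_iff]
      intro P
      rw [hM1 D]
      exact (ev_prod (fun l => mem_LL_iff.1 (bas_mem hs (i l)) P)
        (mem_LL_iff.1 (bas_mem ht i') P)).1
    choose lam hl using fun i i' => (Submodule.mem_span_range_iff_exists_fun T).1 (h1 i i')
    exact ⟨_, s, t, lam, hs, ht, fun i i' => (hl i i').symm, rfl⟩
  have hc0 := hne D' c' hD' hc'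
  obtain ⟨s, t, lam, hs, ht, hl, rfl⟩ := hc
  obtain ⟨s', t', lam', hs', ht', hl', rfl⟩ := hc'
  have e' := eval (hM1 D') (bas_mem hs') (bas_mem ht') hl'
  constructor
  · intro hp
    obtain ⟨a₀, ha⟩ := Function.ne_iff.1 hc0
    obtain ⟨κ, hκ⟩ : ∃ κ, ∀ a, phiF lam a = κ * phiF lam' a :=
      ⟨phiF lam a₀ / phiF lam' a₀, fun a => by
        rw [div_mul_eq_mul_div, eq_div_iff ha]
        exact hp a a₀⟩
    obtain ⟨x, hx⟩ := exists_det_ne ![_, _, _, _] _ ![s, t, s', t']
      (by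
        intro r
        fin_cases r
        exacts [bas_mem hs, bas_mem ht, bas_mem hs', bas_mem ht'])
      (by
        intro r
        fin_cases r
        exacts [hs.1, ht.1, hs'.1, ht'.1])
    rw [← Fin.cons_self_tail x] at hx
    obtain ⟨f, f0, f1, f2, f3⟩ := key (bas_mem hs) (hx 0)
    obtain ⟨h, h0, h1, h2, h3⟩ := key (bas_mem ht) (hx 1)
    obtain ⟨f', f0', f1', f2', f3'⟩ := key (bas_mem hs') (hx 2)
    obtain ⟨h', h0', h1', h2', h3'⟩ := key (bas_mem ht') (hx 3)
    have p := fun P => ev_prod (s := fun _ : Fin (gen T F + 1) => f)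
      (fun _ => mem_LL_iff.1 f1 P) (mem_LL_iff.1 h1 P)
    have p' := fun P => ev_prod (s := fun _ : Fin (gen T F + 1) => f')
      (fun _ => mem_LL_iff.1 f1' P) (mem_LL_iff.1 h1' P)
    simp only [← hM1, Finset.prod_const, Finset.card_univ, Fintype.card_fin] at p p'
    have q : f ^ (gen T F + 1) * h = κ • (f' ^ (gen T F + 1) * h') := by
      refine sub_eq_zero.1 (eq_zero_of_ev (D := M) (sub_mem (mem_LL_iff.2 fun P => (p P).1)
        (Submodule.smul_mem _ _ (mem_LL_iff.2 fun P => (p' P).1))) fun P => ?_)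
      rw [map_sub, map_smul, (p P).2, (p' P).2, ← f2, ← h2, ← f2', ← h2', ← e',
        ← eval (hM1 D) (bas_mem hs) (bas_mem ht) hl, smul_eq_mul, Finset.mul_sum, sub_eq_zero]
      exact Finset.sum_congr rfl fun a _ => by rw [hκ, mul_assoc]
    have hκ0 : algebraMap T F κ ≠ 0 := fun h5 => mul_ne_zero (pow_ne_zero _ f0) h0 (by
      rw [q, Algebra.smul_def, h5, zero_mul])
    refine ⟨f' * f⁻¹, mul_ne_zero f0' (inv_ne_zero f0), ?_⟩
    ext P
    have q1 := congrArg (ord P) q
    rw [Algebra.smul_def, ord_mul P hκ0 (mul_ne_zero (pow_ne_zero _ f0') h0'),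
      ord_mul P (pow_ne_zero _ f0) h0, ord_mul P (pow_ne_zero _ f0') h0', ord_const, ord_pow,
      ord_pow] at q1
    have b := le_dg h3 P
    have b' := le_dg h3' P
    rw [map_sub, map_add, hd2 _ hD, dg_dv, map_sum] at b
    rw [map_sub, map_add, hd2 _ hD', dg_dv, map_sum] at b'
    have c := h3 P
    have c' := h3' P
    simp only [dg_sgl, Finset.sum_const, Finset.card_univ, Fintype.card_fin, nsmul_eq_mul, mul_one]
      at b b'
    generalize (∑ j, Finsupp.single (Fin.tail x j) (1 : ℤ)) = Y at b b' c c'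
    simp only [Finsupp.add_apply, Finsupp.neg_apply, Finsupp.smul_apply, Finsupp.sub_apply,
      dv_apply, smul_eq_mul, Finsupp.zero_apply] at b b' c c'
    rw [dv_apply, ord_mul P f0' (inv_ne_zero f0), ord_inv, Finsupp.sub_apply]
    have := div_eq (g := gen T F) (a := D P + ord P f) (a' := D' P + ord P f') (by
      push_cast at q1
      linear_combination q1) c (by linarith) c' (by linarith)
    omega
  · rintro ⟨z, z0, hz⟩
    have hD : D = D' + dv T z := by rw [← hz, add_sub_cancel]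
    have s1 : ∀ i, z * s i ∈ LL T (D' + Finsupp.single P₀ (2 * gen T F : ℤ)) := fun i => by
      rw [mul_mem_LL_iff z0, add_right_comm, ← hD]
      exact bas_mem hs i
    have t1 : ∀ i, (z ^ (gen T F + 1))⁻¹ * t i ∈
        LL T (-((gen T F + 1 : ℤ) • D') + Finsupp.single P₀ (2 * gen T F : ℤ)) := fun i => by
      rw [mul_mem_LL_iff (inv_ne_zero (pow_ne_zero _ z0))]
      refine LL_mono (le_of_eq ?_) (bas_mem ht i)
      ext P
      simp only [hD, Finsupp.add_apply, Finsupp.neg_apply, Finsupp.smul_apply, dv_apply, ord_inv,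
        ord_pow, smul_eq_mul]
      push_cast
      ring
    have e1 := eval (hM1 D') (e := e) (lam := lam) s1 t1 fun i i' => by
      rw [← hl, Finset.prod_mul_distrib, Finset.prod_const, Finset.card_univ, Fintype.card_fin]
      field_simp
    obtain ⟨κ₁, k1⟩ := det_change (D := D' + Finsupp.single P₀ (2 * gen T F : ℤ))
      fun i => hs'.2.symm ▸ s1 i
    obtain ⟨κ₂, k2⟩ := det_change
      (D := -((gen T F + 1 : ℤ) • D') + Finsupp.single P₀ (2 * gen T F : ℤ))
      fun i => ht'.2.symm ▸ t1 i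
    have h1 := indep_alg (fun x a => ev x (M x) (e a)) (fun c hc => funext
      (Fintype.linearIndependent_iff.1 he.1 c (eq_zero_of_ev (D := M)
        (Submodule.sum_mem _ fun a _ => Submodule.smul_mem _ _ (bas_mem he a)) fun x => by
          simpa using hc x))) _
      (fun a => phiF lam a - κ₁ ^ (gen T F + 1) * κ₂ * phiF lam' a) fun x => by
        simp only [sub_mul, Finset.sum_sub_distrib, mul_assoc, ← Finset.mul_sum]
        rw [e1, e', k1, k2]
        ring
    intro a b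
    rw [sub_eq_zero.1 (congrFun h1 a), sub_eq_zero.1 (congrFun h1 b)]
    ring

end Vale.Agent.P297Y.AJ
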