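import Vale.Agent.P297Y.AJ.Sk2
import Vale.Agent.P297Y.AJ.Th
import Vale.Agent.P297Y.AJ.Bcx

/-! The group of divisor classes of degree zero is compatible with places. -/

set_option linter.all false

namespace Vale.Agent.P297Y.AJ

open Vale.Agent.P009.AV (Par)
open Vale.Agent.P019P P025H816

namespace Jw

theorem eff_sum {X : Type} (n : ℕ) : ∀ E : X →₀ ℤ, 0 ≤ E → dg E = n →
    ∃ Q : Fin n → X, E = ∑ i, Finsupp.single (Q i) 1 := by
  classical
  induction n with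
  | zero =>
    intro E h0 h1
    exact ⟨Fin.elim0, by
      rw [← eq_of_le_of_dg_le h0 (by rw [h1, map_zero]; rfl)]
      simp⟩
  | succ n ih =>
    intro E h0 h1
    have h2 : E ≠ 0 := fun h => by
      rw [h, map_zero] at h1
      omega
    obtain ⟨p, hp⟩ := DFunLike.ne_iff.1 h2
    have h3 : 0 ≤ E p := h0 p
    have h4 : E p ≠ 0 := hp
    obtain ⟨Q, hQ⟩ := ih (E - Finsupp.single p 1) (fun q => by
      have h5 : 0 ≤ E q := h0 q
      simp only [Finsupp.coe_zero, Pi.zero_apply, Finsupp.sub_apply, Finsupp.single_apply]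
      split_ifs with h
      · subst h
        omega
      · omega) (by rw [map_sub, h1, dg_sgl]; push_cast; ring)
    refine ⟨Fin.cons p Q, ?_⟩
    rw [Fin.sum_univ_succ]
    simp only [Fin.cons_zero, Fin.cons_succ]
    rw [← hQ, add_sub_cancel]

theorem dg_map {X Y : Type} (s : X → Y) (D : X →₀ ℤ) : dg (Finsupp.mapDomain s D) = dg D := by
  induction D using Finsupp.induction_linear with
  | zero => simp
  | add D E h1 h2 => rw [Finsupp.mapDomain_add, map_add, map_add, h1, h2]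
  | single p n => rw [Finsupp.mapDomain_single, dg_sgl, dg_sgl]

theorem val_phi {k L T : Type} [Field k] [Field L] [Field T] [Algebra k L] [Algebra k T]
    {V : Pl k L T} {n m : ℕ} {lam : (Fin n → Fin n) → Fin n → Fin m → L}
    {lam' : (Fin n → Fin n) → Fin n → Fin m → T}
    (h : ∀ i i' a, V.Val (lam i i' a) (lam' i i' a)) (a : Fin n → Fin m) :
    V.Val (phiF lam a) (phiF lam' a) :=
  Pl.val_sum _ fun _ _ => Pl.val_sum _ fun _ _ =>
    (V.val_int _).mul (Pl.val_prod _ fun _ _ => h _ _ _)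

section one

variable {T F : Type} [Field T] [Field F] [Algebra T F] [CFF T F]

/-- The subgroup generated by the principal divisors and the base point. -/
noncomputable def Hg (P : Plk T F) : AddSubgroup (Plk T F →₀ ℤ) :=
  prn T F ⊔ AddSubgroup.zmultiples (Finsupp.single P 1)

/-- The group of classes. -/
abbrev Cg (P : Plk T F) : Type := (Plk T F →₀ ℤ) ⧸ Hg P

/-- The class of a divisor. -/
noncomputable def cls (P : Plk T F) : (Plk T F →₀ ℤ) →+ Cg P := QuotientAddGroup.mk' _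

variable {P : Plk T F}

theorem dg_prn {D : Plk T F →₀ ℤ} (h : D ∈ prn T F) : dg D = 0 := by
  obtain ⟨z, -, rfl⟩ := h
  exact dg_dv z

theorem cls_prn {D : Plk T F →₀ ℤ} (h : D ∈ prn T F) : cls P D = 0 :=
  (QuotientAddGroup.eq_zero_iff _).2 (AddSubgroup.mem_sup_left h)

theorem cls_base : cls P (Finsupp.single P 1) = 0 :=
  (QuotientAddGroup.eq_zero_iff _).2 (AddSubgroup.mem_sup_right (AddSubgroup.mem_zmultiples _))

theorem cls_base' (n : ℤ) : cls P (Finsupp.single P n) = 0 := by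
  rw [show Finsupp.single P n = n • Finsupp.single P (1 : ℤ) by simp, map_zsmul, cls_base,
    smul_zero]

theorem prn_of_cls {D : Plk T F →₀ ℤ} (h0 : dg D = 0) (h : cls P D = 0) : D ∈ prn T F := by
  obtain ⟨E, hE, _, ⟨n, rfl⟩, rfl⟩ :=
    AddSubgroup.mem_sup.1 ((QuotientAddGroup.eq_zero_iff _).1 h)
  rw [map_add, dg_prn hE, map_zsmul, dg_sgl, zero_add, smul_eq_mul, mul_one] at h0
  simpa [h0] using hE

theorem cls_surj : Function.Surjective (cls P) := QuotientAddGroup.mk'_surjective _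

theorem exists_zero (a : Cg P) : ∃ D, dg D = 0 ∧ cls P D = a := by
  obtain ⟨D, rfl⟩ := cls_surj a
  exact ⟨D - Finsupp.single P (dg D), by rw [map_sub, dg_sgl, sub_self],
    by rw [map_sub, cls_base', sub_zero]⟩

theorem cls_eq_sum (a : Cg P) :
    ∃ Q : Fin (gen T F + 1) → Plk T F, a = ∑ i, cls P (Finsupp.single (Q i) 1) := by
  obtain ⟨D, hD, rfl⟩ := exists_zero a
  set E := D + Finsupp.single P ((gen T F + 1 : ℕ) : ℤ) with hE
  have h1 : dg E = (gen T F + 1 : ℕ) := by rw [hE, map_add, hD, dg_sgl, zero_add]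
  have h2 := RR E
  have h3 : 0 < Module.finrank T (LL T E) := by omega
  obtain ⟨⟨z, hz⟩, h4⟩ := Module.finrank_pos_iff_exists_ne_zero.1 h3
  have h5 : z ≠ 0 := fun h => h4 (Subtype.ext h)
  obtain ⟨Q, hQ⟩ := eff_sum (gen T F + 1) (E + dv T z) (fun p => by
    have h6 := hz.resolve_left h5 p
    simp only [Finsupp.coe_zero, Pi.zero_apply]
    rw [Finsupp.add_apply, dv_apply]
    omega) (by rw [map_add, dg_dv, h1, add_zero])
  refine ⟨Q, ?_⟩
  rw [← map_sum, ← hQ, map_add, cls_prn ⟨z, h5, rfl⟩, hE, map_add, cls_base', add_zero, add_zero]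

/-- `Φ` attaches to each class the point of one of its divisors of degree zero. -/
def IsΦ (g : ℕ) (P : Plk T F) {m : ℕ} (e : Fin m → F)
    (Φ : Cg P → (Fin (g + 1) → Fin m) → T) : Prop :=
  ∀ a, ∃ D, dg D = 0 ∧ cls P D = a ∧ IsPhi g P e D (Φ a)

variable {g m : ℕ} {e : Fin m → F} (th : TH) (hg : gen T F = g)
  (he : IsBas (LL T (Finsupp.single P (((g + 2) * (2 * g) : ℕ) : ℤ))) e)
include th hg he

theorem exists_Φ : ∃ Φ, IsΦ g P e Φ := by
  have h : ∀ a : Cg P, ∃ c D, dg D = 0 ∧ cls P D = a ∧ IsPhi g P e D c := fun a => by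
    obtain ⟨D, h1, h2⟩ := exists_zero a
    obtain ⟨c, hc⟩ := (th T F g m P e hg he).1 D h1
    exact ⟨c, D, h1, h2, hc⟩
  choose Φ h using h
  exact ⟨Φ, h⟩

variable {Φ : Cg P → (Fin (g + 1) → Fin m) → T}

theorem Φ_inj (h : IsΦ g P e Φ) (a b : Cg P) (hp : Par (Φ a) (Φ b)) : a = b := by
  obtain ⟨D, h1, rfl, h2⟩ := h a
  obtain ⟨E, h3, rfl, h4⟩ := h b
  rw [← sub_eq_zero, ← map_sub]
  exact cls_prn (((th T F g m P e hg he).2.2 D E _ _ h1 h3 h2 h4).1 hp)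

theorem Φ_ne (h : IsΦ g P e Φ) (a : Cg P) : Φ a ≠ 0 := by
  obtain ⟨D, h1, -, h2⟩ := h a
  exact (th T F g m P e hg he).2.1 D _ h1 h2

theorem Φ_par (h : IsΦ g P e Φ) {D : Plk T F →₀ ℤ} {c : (Fin (g + 1) → Fin m) → T}
    (hD : dg D = 0) (hc : IsPhi g P e D c) : Par c (Φ (cls P D)) := by
  obtain ⟨E, h1, h2, h3⟩ := h (cls P D)
  exact ((th T F g m P e hg he).2.2 D E _ _ hD h1 hc h3).2
    (prn_of_cls (P := P) (by rw [map_sub, hD, h1, sub_zero]) (by rw [map_sub, h2, sub_self]))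

omit th hg in
theorem prod_mem {D : Plk T F →₀ ℤ} {s t : Fin (g + 1) → F}
    (hs : IsBas (LL T (D + Finsupp.single P (2 * g : ℤ))) s)
    (ht : IsBas (LL T (-((g + 1 : ℤ) • D) + Finsupp.single P (2 * g : ℤ))) t)
    (i : Fin (g + 1) → Fin (g + 1)) (i' : Fin (g + 1)) :
    ∃ c : Fin m → T, ∑ a, c a • e a = (∏ l, s (i l)) * t i' := by
  classical
  refine (Submodule.mem_span_range_iff_exists_fun T).1 ?_
  rw [he.2, mem_LL_iff]
  intro Q
  have h1 := (ThAux.ev_prod (fun l => mem_LL_iff.1 (ThAux.bas_mem hs (i l)) Q)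
    (mem_LL_iff.1 (ThAux.bas_mem ht i') Q)).1
  refine Mge_mono Q (le_of_eq ?_) h1
  simp only [Finsupp.add_apply, Finsupp.neg_apply, Finsupp.smul_apply, Finsupp.single_apply,
    smul_eq_mul]
  push_cast
  split_ifs <;> ring

end one

/-- The values of a place above `Q` are those of `Q`. -/
theorem down {k F T : Type} [Field k] [Field F] [Field T] [Algebra k F] [Algebra k T] [CFF k F]
    {e : Pl k F T} {Q : Plk k F} (h : ∀ f c, pv Q f c → e.Val f (algebraMap k T c)) {f : F} {b : T}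
    (hb : e.Val f b) : ∃ c, pv Q f c ∧ b = algebraMap k T c := by
  by_cases h0 : f = 0
  · subst h0
    exact ⟨0, by simpa using pv_cst Q 0, by rw [map_zero]; exact hb.unique e.val_zero⟩
  rcases (plc Q).val_or f with h1 | h1
  · have h2 := (val_plc Q _ _).1 (Pl.val_of_mem h1)
    exact ⟨_, h2, hb.unique (h _ _ h2)⟩
  · have h2 := h _ _ ((val_plc Q _ _).1 h1)
    rw [map_zero] at h2
    exact absurd hb.mem (h2.not_mem h0)

/-- Specialisation of classes. -/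
theorem sp_ex (bcx : BCX) (spec : SPEC) (th : TH) {k F Ω F₁ T F₂ : Type} [Field k] [Field F]
    [Field Ω] [Field F₁] [Field T] [Field F₂] [Algebra k F] [Algebra k Ω] [Algebra k T]
    [Algebra Ω F₁] [Algebra T F₂] [CFF k F] [CFF Ω F₁] [CFF T F₂] [CharZero k] {j₁ : F →+* F₁}
    {j₂ : F →+* F₂} (b₁ : IsBC (algebraMap k Ω) j₁) (b₂ : IsBC (algebraMap k T) j₂)
    {P₀ : Plk k F} {P₁ : Plk Ω F₁} {P₂ : Plk T F₂}
    (p₁ : ∀ f c, pv P₀ f c → pv P₁ (j₁ f) (algebraMap k Ω c))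
    (p₂ : ∀ f c, pv P₀ f c → pv P₂ (j₂ f) (algebraMap k T c)) {m : ℕ} {e : Fin m → F}
    (he : IsBas (LL k (Finsupp.single P₀ (((gen k F + 2) * (2 * gen k F) : ℕ) : ℤ))) e)
    {Φ₁ : Cg P₁ → (Fin (gen k F + 1) → Fin m) → Ω} {Φ₂ : Cg P₂ → (Fin (gen k F + 1) → Fin m) → T}
    (f₁ : IsΦ (gen k F) P₁ (fun a => j₁ (e a)) Φ₁) (f₂ : IsΦ (gen k F) P₂ (fun a => j₂ (e a)) Φ₂)
    (V : Pl k Ω T) : ∃ sp : Cg P₁ →+ Cg P₂, (∀ α, V.Rep (Φ₁ α) (Φ₂ (sp α))) ∧
      ∀ P Q, (∀ f b c, pv P (j₁ f) b → V.Val b c → pv Q (j₂ f) c) →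
        sp (cls P₁ (Finsupp.single P 1)) = cls P₂ (Finsupp.single Q 1) := by
  classical
  choose s h1 h2 using fun P => bcx.pt k F T F₂ j₂ b₂ ((pull j₁ b₁.comm P).comp V)
  have hs : ∀ P f b c, pv P (j₁ f) b → V.Val b c → pv (s P) (j₂ f) c := fun P f b c a1 a2 =>
    h1 P f c ((Pl.val_comp _ _ _ _).2 ⟨b, (val_pull _ _ _ _ _).2 a1, a2⟩)
  have hu : ∀ P Q, (∀ f b c, pv P (j₁ f) b → V.Val b c → pv Q (j₂ f) c) → s P = Q :=
    fun P Q h => (h2 P Q fun f c a => by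
      obtain ⟨b, a1, a2⟩ := (Pl.val_comp _ _ _ _).1 a
      exact h f b c ((val_pull _ _ _ _ _).1 a1) a2).symm
  have hP : s P₁ = P₂ := hu _ _ fun f b c a1 a2 => by
    obtain ⟨c₀, a3, rfl⟩ := down (e := pull j₁ b₁.comm P₁)
      (fun f c h => (val_pull _ _ _ _ _).2 (p₁ f c h)) ((val_pull _ _ _ _ _).2 a1)
    rw [a2.unique (V.val_cst c₀)]
    exact p₂ f c₀ a3
  obtain ⟨Red, r1, r2, r3, r4, r5⟩ := spec k F Ω F₁ T F₂ j₁ j₂ b₁ b₂ V s hs
  have hn : 2 * gen k F ≤ (gen k F + 2) * (2 * gen k F) := Nat.le_mul_of_pos_left _ (by omega)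
  have e₁ := bcx.bas k F Ω F₁ j₁ b₁ P₀ P₁ p₁ _ m e hn he
  have e₂ := bcx.bas k F T F₂ j₂ b₂ P₀ P₂ p₂ _ m e hn he
  set μ : (Plk Ω F₁ →₀ ℤ) →+ (Plk T F₂ →₀ ℤ) := Finsupp.mapDomain.addMonoidHom s with hμ
  have m1 : ∀ D, μ D = Finsupp.mapDomain s D := fun _ => rfl
  have m2 : ∀ P n, μ (Finsupp.single P n) = Finsupp.single (s P) n := fun P n =>
    Finsupp.mapDomain_single
  refine ⟨QuotientAddGroup.lift (Hg P₁) ((cls P₂).comp μ) fun D hD => ?_, fun α => ?_,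
    fun P Q h => ?_⟩
  · obtain ⟨E, hE, _, ⟨n, rfl⟩, rfl⟩ := AddSubgroup.mem_sup.1 hD
    change cls P₂ (μ _) = 0
    rw [map_add, map_add, map_zsmul, m2, hP, map_zsmul, cls_base, smul_zero, add_zero]
    exact cls_prn (r3 E hE)
  · obtain ⟨D, hD, rfl, -⟩ := f₁ α
    change V.Rep _ (Φ₂ (cls P₂ (μ D)))
    have hD' : dg (μ D) = 0 := (dg_map s D).trans hD
    obtain ⟨u, u', u1, u2, u3⟩ := r4 (D + Finsupp.single P₁ (2 * gen k F : ℤ)) (gen k F + 1)
      (by rw [map_add, hD, dg_sgl, zero_add]) (by rw [map_add, hD, dg_sgl]; push_cast; ring)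
    obtain ⟨t, t', t1, t2, t3⟩ := r4 (-((gen k F + 1 : ℤ) • D) +
      Finsupp.single P₁ (2 * gen k F : ℤ)) (gen k F + 1)
      (by rw [map_add, map_neg, map_zsmul, hD, dg_sgl]; simp)
      (by rw [map_add, map_neg, map_zsmul, hD, dg_sgl]; push_cast; simp; ring)
    rw [← m1, map_add, m2, hP] at u2 t2
    rw [map_neg, map_zsmul] at t2
    choose lam hl using prod_mem e₁ u1 t1
    have h3 : ∀ (i : Fin (gen k F + 1) → Fin (gen k F + 1)) i',
        Red (∑ a, lam i i' a • j₁ (e a)) ((∏ l, u' (i l)) * t' i') := fun i i' => by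
      rw [hl]
      exact r2 _ _ _ _ (Finset.prod_hom_rel (r := Red) r1 fun l _ _ h => r2 _ _ _ _ (u3 _) h)
        (t3 i')
    choose lam' l1 l2 using fun i i' => r5 m e he.1 _ _ (h3 i i')
    have c1 : IsPhi (gen k F) P₁ (fun a => j₁ (e a)) D (phiF lam) :=
      ⟨u, t, lam, u1, t1, fun i i' => (hl i i').symm, rfl⟩
    have c2 : IsPhi (gen k F) P₂ (fun a => j₂ (e a)) (μ D) (phiF lam') :=
      ⟨u', t', lam', u2, t2, l2, rfl⟩
    exact ((Pl.rep_of_val ((th T F₂ _ m P₂ _ b₂.gen_eq e₂).2.1 _ _ hD' c2)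
      (val_phi l1)).congr_left (Φ_par th b₁.gen_eq e₁ f₁ hD c1)
      (Φ_ne th b₁.gen_eq e₁ f₁ _)).congr_right (Φ_par th b₂.gen_eq e₂ f₂ hD' c2)
      (Φ_ne th b₂.gen_eq e₂ f₂ _)
  · change cls P₂ (μ _) = _
    rw [m2, hu P Q h]

end Jw

open Jw in
theorem jw : B_JW := by
  intro plt bcx gn spec th k F _ _ _ _ _ P₀
  obtain ⟨Ω, _, _, _, σ, hσ⟩ := gn k F (gen k F + 1 + (gen k F + 1))
  obtain ⟨F₁, _, _, _, j, b₁⟩ := bcx.ex k F Ω
  have b₀ : IsBC (algebraMap k k) (RingHom.id F) :=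
    ⟨fun _ => rfl, fun S _ h => eq_top_iff.2 fun z _ => h z⟩
  have p₀ : ∀ f c, pv P₀ f c → pv P₀ (RingHom.id F f) (algebraMap k k c) := fun _ _ h => h
  obtain ⟨P₁, p₁, -⟩ := bcx.pt k F Ω F₁ j b₁ ((plc P₀).comp (Pl.ofHom (Algebra.ofId k Ω)))
  replace p₁ : ∀ f c, pv P₀ f c → pv P₁ (j f) (algebraMap k Ω c) := fun f c h =>
    p₁ f _ ((Pl.val_comp _ _ _ _).2 ⟨c, (val_plc _ _ _).2 h, Pl.val_ofHom _ c⟩)
  obtain ⟨m, e, he⟩ :=
    Bc.exists_isBas (LL k (Finsupp.single P₀ (((gen k F + 2) * (2 * gen k F) : ℕ) : ℤ)))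
  have e₁ := bcx.bas k F Ω F₁ j b₁ P₀ P₁ p₁ _ m e (Nat.le_mul_of_pos_left _ (by omega)) he
  obtain ⟨Φ, f₀⟩ := exists_Φ th rfl he
  obtain ⟨Φ', f₁⟩ := exists_Φ th b₁.gen_eq e₁
  choose sp s1 s2 using sp_ex bcx spec th b₁ b₀ p₁ p₀ he f₁ f₀
  choose sp' s3 _ using sp_ex bcx spec th b₁ b₁ p₁ p₁ he f₁ f₁
  obtain ⟨cst, s4, -⟩ := sp_ex bcx spec th b₀ b₁ p₀ p₁ he f₀ f₁ (Pl.ofHom (Algebra.ofId k Ω))
  choose ptP q1 _ using fun s : F →ₐ[k] Ω => bcx.pt k F Ω F₁ j b₁ (Pl.ofHom s)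
  have key : ∀ (s : F →ₐ[k] Ω) (V : Pl k Ω k) (Q : Plk k F),
      (∀ f c, pv Q f c → V.Val (s f) c) →
      sp V (cls P₁ (Finsupp.single (ptP s) 1)) = cls P₀ (Finsupp.single Q 1) :=
    fun s V Q h => s2 V _ _ fun f b c a1 a2 => by
      rw [pv_unique a1 (q1 s f _ (Pl.val_ofHom s f))] at a2
      obtain ⟨c₀, a3, rfl⟩ := down (e := V.comap s) h a2
      exact a3
  refine ⟨Ω, Cg P₀, Cg P₁, Fin (gen k F + 1) → Fin m, inferInstance, inferInstance, inferInstance,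
    inferInstance, inferInstance, inferInstance,
    { Φ := Φ
      Φ' := Φ'
      inj := Φ_inj th rfl he f₀
      inj' := Φ_inj th b₁.gen_eq e₁ f₁
      sp := sp
      sp_rep := s1
      sp' := sp'
      sp'_rep := s3
      cst := cst
      cst_par := fun a => (s4 a).par (Pl.rep_of_val ?_ fun i => Pl.val_ofHom _ _) (Pl.par_refl _)
      α₁ := ∑ i, cls P₁ (Finsupp.single (ptP (σ (Fin.castAdd _ i))) 1)
      α₂ := ∑ i, cls P₁ (Finsupp.single (ptP (σ (Fin.natAdd _ i))) 1)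
      gen := fun a b => ?_ },
    cls P₀, fun s => cls P₁ (Finsupp.single (ptP s) 1), gen k F + 1, fun i => σ (Fin.castAdd _ i),
    ⟨σ 0⟩, cls_base, fun D => prn_of_cls, cls_surj, rfl, key⟩
  · obtain ⟨i, hi⟩ := Function.ne_iff.1 (Φ_ne th rfl he f₀ a)
    exact Function.ne_iff.2 ⟨i, (map_ne_zero _).2 hi⟩
  · obtain ⟨Q, rfl⟩ := cls_eq_sum a
    obtain ⟨Q', rfl⟩ := cls_eq_sum b
    obtain ⟨V, hV⟩ := hσ (Fin.append Q Q')
    refine ⟨V, ?_, ?_⟩
    · rw [map_sum]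
      exact Finset.sum_congr rfl fun i _ => key _ V _ (Fin.append_left Q Q' i ▸ hV _)
    · rw [map_sum]
      exact Finset.sum_congr rfl fun i _ => key _ V _ (Fin.append_right Q Q' i ▸ hV _)

end Vale.Agent.P297Y.AJ
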