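import Vale.Agent.P297Y.AJ.Sk

/-! The normalisation of the locus of a point. -/

namespace Vale.Agent.P297Y.AJ

namespace NmA

open Polynomial

/-- the normalisation of an affine variety is finite -/
theorem fin_closure (k A K : Type) [Field k] [CharZero k] [CommRing A] [IsDomain A] [Algebra k A]
    [Algebra.FiniteType k A] [Field K] [Algebra A K] [IsFractionRing A K] :
    ∃ s : Finset K, (∀ g ∈ s, IsIntegral A g) ∧
      ∀ f : K, IsIntegral A f → f ∈ Submodule.span A (s : Set K) := by
  classical
  obtain ⟨n, g, hg, hfin⟩ := exists_finite_inj_algHom_of_fg k A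
  let B := MvPolynomial (Fin n) k
  let _ : Algebra B A := g.toRingHom.toAlgebra
  have _ : Module.Finite B A := hfin
  let _ : Algebra B K := ((algebraMap A K).comp (algebraMap B A)).toAlgebra
  have hst : IsScalarTower B A K := .of_algebraMap_eq' rfl
  have hinj : Function.Injective (algebraMap B K) := (IsFractionRing.injective A K).comp hg
  have hfs : FaithfulSMul B K := (faithfulSMul_iff_algebraMap_injective B K).2 hinj
  have hfa : FaithfulSMul B A := (faithfulSMul_iff_algebraMap_injective B A).2 hg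
  let L := FractionRing B
  let _ : Algebra L K := FractionRing.liftAlgebra B K
  have _ : IsScalarTower B L K := inferInstance
  have hfd : FiniteDimensional L K := Module.Finite.of_isLocalization B A (nonZeroDivisors B)
  have hcz : CharZero L := charZero_of_injective_algebraMap (algebraMap k L).injective
  let C := integralClosure B K
  have hC : Module.Finite B C := IsIntegralClosure.finite B L K C
  obtain ⟨s, hs⟩ := hC.fg_top
  refine ⟨s.image fun c : C => (c : K), fun x hx => ?_, fun f hf => ?_⟩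
  · obtain ⟨c, -, rfl⟩ := Finset.mem_image.1 hx
    exact IsIntegral.tower_top (R := B) c.2
  · have h1 : ∀ c ∈ Submodule.span B (s : Set C),
        (c : K) ∈ Submodule.span A ((s.image fun c : C => (c : K) : Finset K) : Set K) := by
      intro c hc
      induction hc using Submodule.span_induction with
      | mem x hx => exact Submodule.subset_span (Finset.mem_coe.2 (Finset.mem_image_of_mem _ hx))
      | zero => exact Submodule.zero_mem _
      | add x y _ _ hx hy => exact Submodule.add_mem _ hx hy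
      | smul b x _ hx => exact Submodule.smul_of_tower_mem _ b hx
    exact h1 ⟨f, isIntegral_trans (R := B) f hf⟩ (hs ▸ Submodule.mem_top)

variable {k Ω : Type} [Field k] [Field Ω] [Algebra k Ω]

open IntermediateField.algebraAdjoinAdjoin in
/-- generators of the normalisation inside the large field -/
theorem exists_gen [CharZero k] {S : Set Ω} (hS : S.Finite) :
    ∃ G : Finset Ω, (∀ g ∈ G, IsIntegral (Algebra.adjoin k S) g ∧
        g ∈ IntermediateField.adjoin k S) ∧
      ∀ f ∈ IntermediateField.adjoin k S, IsIntegral (Algebra.adjoin k S) f →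
        ∀ R : Subalgebra k Ω, S ⊆ R → (∀ g ∈ G, g ∈ R) → f ∈ R := by
  classical
  have hft : Algebra.FiniteType k (Algebra.adjoin k S) :=
    (Subalgebra.fg_iff_finiteType _).1 (Subalgebra.fg_def.2 ⟨S, hS, rfl⟩)
  obtain ⟨s, h1, h2⟩ := fin_closure k (Algebra.adjoin k S) (IntermediateField.adjoin k S)
  have key : ∀ f : IntermediateField.adjoin k S,
      IsIntegral (Algebra.adjoin k S) (f : Ω) ↔ IsIntegral (Algebra.adjoin k S) f := fun f =>
    isIntegral_algebraMap_iff (A := IntermediateField.adjoin k S) (B := Ω) Subtype.val_injective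
  refine ⟨s.image Subtype.val, fun g hg => ?_, fun f hf hi R hR hG => ?_⟩
  · obtain ⟨c, hc, rfl⟩ := Finset.mem_image.1 hg
    exact ⟨(key c).2 (h1 c hc), c.2⟩
  · have h3 : ∀ c ∈ Submodule.span (Algebra.adjoin k S)
        (s : Set (IntermediateField.adjoin k S)), (c : Ω) ∈ R := by
      intro c hc
      induction hc using Submodule.span_induction with
      | mem x hx => exact hG _ (Finset.mem_image_of_mem _ hx)
      | zero => exact R.zero_mem
      | add x y _ _ hx hy => exact R.add_mem hx hy
      | smul b x _ hx => exact R.mul_mem (Algebra.adjoin_le hR b.2) hx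
    exact h3 ⟨f, hf⟩ (h2 _ ((key ⟨f, hf⟩).1 hi))

/-- clearing denominators in an integral equation -/
theorem int_mul_pow {R R' : Subalgebra k Ω} {u g : Ω} (hu : u ∈ R')
    (h : ∀ a ∈ R, ∃ N : ℕ, u ^ N * a ∈ R') (hg : IsIntegral R g) :
    ∃ N : ℕ, ∀ M, N ≤ M → IsIntegral R' (u ^ M * g) := by
  classical
  obtain ⟨p, hp, h0⟩ := hg
  choose N hN using fun i : ℕ => h (p.coeff i) (p.coeff i).2
  have h1 : ∀ i, u ^ p.support.sup N * (p.coeff i : Ω) ∈ R' := fun i => by
    by_cases hi : i ∈ p.support
    · obtain ⟨m, hm⟩ := Nat.exists_eq_add_of_le (Finset.le_sup (f := N) hi)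
      rw [hm, add_comm, pow_add, mul_assoc]
      exact R'.mul_mem (R'.pow_mem hu m) (hN i)
    · rw [notMem_support_iff.1 hi]
      simp
  have hq : (p.map (algebraMap R Ω)).Monic := hp.map _
  have h2 : (p.map (algebraMap R Ω)).scaleRoots (u ^ p.support.sup N) ∈
      lifts (algebraMap R' Ω) := by
    rw [lifts_iff_coeff_lifts]
    intro i
    suffices h3 : ((p.map (algebraMap R Ω)).scaleRoots (u ^ p.support.sup N)).coeff i ∈ R' from
      ⟨⟨_, h3⟩, rfl⟩
    rw [coeff_scaleRoots]
    rcases lt_trichotomy i (p.map (algebraMap R Ω)).natDegree with h4 | h4 | h4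
    · obtain ⟨m, hm⟩ := Nat.exists_eq_add_of_lt h4
      have h5 : (p.map (algebraMap R Ω)).natDegree - i = m + 1 := by omega
      rw [h5, coeff_map, pow_succ, mul_comm, mul_assoc]
      exact R'.mul_mem (R'.pow_mem (R'.pow_mem hu _) m) (h1 i)
    · rw [h4, hq.coeff_natDegree, Nat.sub_self, pow_zero, mul_one]
      exact R'.one_mem
    · rw [coeff_eq_zero_of_natDegree_lt h4, zero_mul]
      exact R'.zero_mem
  obtain ⟨q, h3, -, h4⟩ := lifts_and_natDegree_eq_and_monic h2 ((monic_scaleRoots_iff _).2 hq)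
  have h5 : IsIntegral R' (u ^ p.support.sup N * g) := by
    refine ⟨q, h4, ?_⟩
    rw [eval₂_eq_eval_map, h3, scaleRoots_eval_mul, ← eval₂_eq_eval_map, h0, mul_zero]
  refine ⟨p.support.sup N, fun M hM => ?_⟩
  obtain ⟨m, rfl⟩ := Nat.exists_eq_add_of_le hM
  rw [add_comm, pow_add, mul_assoc]
  exact (isIntegral_algebraMap (x := (⟨u ^ m, R'.pow_mem hu m⟩ : R'))).mul h5

variable {ι : Type} (x : ι → Ω)

theorem mem_chart (w j : ι) : x j / x w ∈ Algebra.adjoin k (Set.range fun j => x j / x w) :=
  Algebra.subset_adjoin ⟨j, rfl⟩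

theorem chart_change (w w' : ι) : ∀ a ∈ Algebra.adjoin k (Set.range fun j => x j / x w),
    ∃ N : ℕ, (x w / x w') ^ N * a ∈ Algebra.adjoin k (Set.range fun j => x j / x w') := by
  intro a ha
  have hu := mem_chart (k := k) x w' w
  induction ha using Algebra.adjoin_induction with
  | mem y hy =>
    obtain ⟨j, rfl⟩ := hy
    refine ⟨1, ?_⟩
    by_cases h : x w = 0
    · rw [h, zero_div, pow_one, zero_mul]
      exact Subalgebra.zero_mem _
    · have e : (x w / x w') ^ 1 * (x j / x w) = x j / x w' := by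
        rw [pow_one, mul_comm, div_mul_div_cancel₀ h]
      exact e ▸ mem_chart x w' j
  | algebraMap r => exact ⟨0, by rw [pow_zero, one_mul]; exact Subalgebra.algebraMap_mem _ r⟩
  | add a b _ _ ha hb =>
    obtain ⟨N, hN⟩ := ha
    obtain ⟨M, hM⟩ := hb
    have e : (x w / x w') ^ (N + M) * (a + b) = (x w / x w') ^ M * ((x w / x w') ^ N * a) +
        (x w / x w') ^ N * ((x w / x w') ^ M * b) := by ring
    exact ⟨N + M, e ▸ Subalgebra.add_mem _ (Subalgebra.mul_mem _ (Subalgebra.pow_mem _ hu _) hN)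
      (Subalgebra.mul_mem _ (Subalgebra.pow_mem _ hu _) hM)⟩
  | mul a b _ _ ha hb =>
    obtain ⟨N, hN⟩ := ha
    obtain ⟨M, hM⟩ := hb
    have e : (x w / x w') ^ (N + M) * (a * b) =
        ((x w / x w') ^ N * a) * ((x w / x w') ^ M * b) := by ring
    exact ⟨N + M, e ▸ Subalgebra.mul_mem _ hN hM⟩

theorem mem_field (w j : ι) :
    x j / x w ∈ IntermediateField.adjoin k (Set.range fun j => x j / x w) :=
  IntermediateField.subset_adjoin _ _ ⟨j, rfl⟩

theorem field_le (w : ι) {w' : ι} (h : x w' ≠ 0) :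
    IntermediateField.adjoin k (Set.range fun j => x j / x w) ≤
      IntermediateField.adjoin k (Set.range fun j => x j / x w') := by
  rw [IntermediateField.adjoin_le_iff]
  rintro _ ⟨j, rfl⟩
  have e : x j / x w = x j / x w' / (x w / x w') := (div_div_div_cancel_right₀ h _ _).symm
  change x j / x w ∈ _
  rw [e]
  exact div_mem (mem_field x w' j) (mem_field x w' w)

end NmA

open NmA

theorem nm : NM := by
  intro k Ω ι _ _ _ _ _ x
  classical
  choose G hG1 hG2 using fun w : ι =>
    exists_gen (k := k) (Set.finite_range fun j => x j / x w)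
  choose N hN using fun (w' : ι) (z : (w : ι) × G w) =>
    int_mul_pow (mem_chart (k := k) x w' z.1) (chart_change x z.1 w') (hG1 z.1 z.2.1 z.2.2).1
  obtain ⟨d, hd⟩ : ∃ d, ∀ w' z, N w' z ≤ d :=
    ⟨Finset.univ.sup fun q : ι × ((w : ι) × G w) => N q.1 q.2, fun w' z =>
      Finset.le_sup (f := fun q : ι × ((w : ι) × G w) => N q.1 q.2) (Finset.mem_univ (w', z))⟩
  have e1 : ∀ w j w', x w ^ d * x j / x w' ^ (d + 1) = (x w / x w') ^ d * (x j / x w') :=
    fun w j w' => by rw [div_pow, div_mul_div_comm, pow_succ]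
  have e2 : ∀ w w' (g : Ω), x w ^ (d + 1) * g / x w' ^ (d + 1) = (x w / x w') ^ (d + 1) * g :=
    fun w w' g => by rw [div_pow, mul_div_right_comm]
  refine ⟨(ι × ι) ⊕ ((w : ι) × G w), inferInstance,
    Sum.elim (fun q => x q.1 ^ d * x q.2) (fun z => x z.1 ^ (d + 1) * z.2.1),
    fun w j => Sum.inl (w, j), d, fun w j => rfl, fun w hw => ⟨?_, ?_, fun f hf hi => ?_⟩⟩
  · rintro (q | z)
    · rw [Sum.elim_inl, e1]
      exact isIntegral_algebraMap (x := (⟨_, Subalgebra.mul_mem _
        (Subalgebra.pow_mem _ (mem_chart x w q.1) d) (mem_chart x w q.2)⟩ :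
          Algebra.adjoin k (Set.range fun j => x j / x w)))
    · rw [Sum.elim_inr, e2]
      exact hN w z (d + 1) ((hd w z).trans (Nat.le_succ d))
  · rintro (q | z)
    · rw [Sum.elim_inl, e1]
      exact mul_mem (pow_mem (mem_field x w q.1) d) (mem_field x w q.2)
    · rw [Sum.elim_inr, e2]
      exact mul_mem (pow_mem (mem_field x w z.1) _)
        (field_le x z.1 hw (hG1 z.1 z.2.1 z.2.2).2)
  · refine hG2 w f hf hi _ ?_ fun g hg => Algebra.subset_adjoin ⟨Sum.inr ⟨w, g, hg⟩, ?_⟩
    · rintro _ ⟨j, rfl⟩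
      refine Algebra.subset_adjoin ⟨Sum.inl (w, j), ?_⟩
      change x w ^ d * x j / x w ^ (d + 1) = x j / x w
      rw [e1, div_self hw, one_pow, one_mul]
    · change x w ^ (d + 1) * g / x w ^ (d + 1) = g
      rw [e2, div_self hw, one_pow, one_mul]

end Vale.Agent.P297Y.AJ
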