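import Vale.Agent.P297Y.AJ.Spec.Key
import Vale.Agent.P025.R2.H816.BC3

/-! Specialisation of divisors and of spaces of sections. -/

set_option linter.all false

namespace Vale.Agent.P297Y.AJ

open Vale.Agent.P019P P025H816

namespace Spec

variable {k F Ω F₁ T F₂ : Type} [Field k] [Field F] [Field Ω] [Field F₁] [Field T] [Field F₂]
  [Algebra k F] [Algebra k Ω] [Algebra k T] [Algebra Ω F₁] [Algebra T F₂]

/-- Division by the largest entry. -/
theorem piv (V : Pl k Ω T) {ι : Type} {w : ι →₀ Ω} (hw : w ≠ 0) :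
    ∃ a, w a ≠ 0 ∧ ∃ w' : ι →₀ T, w' a = 1 ∧ ∀ i, V.Val (((w a)⁻¹ • w) i) (w' i) := by
  obtain ⟨a, ha, hm⟩ := w.support.exists_max_image (fun i => V.O.valuation (w i))
    (Finsupp.support_nonempty_iff.2 hw)
  have a0 : w a ≠ 0 := Finsupp.mem_support_iff.1 ha
  have h1 : ∀ i, ((w a)⁻¹ • w) i ∈ V.O := fun i => by
    by_cases hi : i ∈ w.support
    · rw [Finsupp.smul_apply, smul_eq_mul, ← V.O.valuation_le_one_iff, map_mul, map_inv₀,
        ← div_eq_inv_mul]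
      exact div_le_one_of_le₀ (hm i hi) zero_le
    · rw [Finsupp.smul_apply, Finsupp.notMem_support_iff.1 hi, smul_zero]
      exact V.O.zero_mem
  refine ⟨a, a0, Finsupp.onFinset w.support (fun i => V.r ⟨_, h1 i⟩) fun i hi => ?_, ?_,
    fun i => Pl.val_of_mem (h1 i)⟩
  · have := (Pl.val_of_mem (h1 i)).ne_zero hi
    exact Finsupp.mem_support_iff.2 (right_ne_zero_of_smul this)
  · exact (Pl.val_of_mem (h1 a)).unique (by simpa [a0] using V.val_one)

/-- An echelon basis. -/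
theorem echelon (V : Pl k Ω T) {ι L : Type} [AddCommGroup L] [Module Ω L] [FiniteDimensional Ω L]
    (ψ : L →ₗ[Ω] (ι →₀ Ω)) (hψ : Function.Injective ψ) (r : ℕ) (hr : r ≤ Module.finrank Ω L) :
    ∃ (u : Fin r → L) (w' : Fin r → ι →₀ T) (π : Fin r → ι), (∀ i a, V.Val (ψ (u i) a) (w' i a)) ∧
      (∀ c : Fin r → T, (∀ j, ∑ i, c i * w' i (π j) = 0) → c = 0) ∧
      ∀ c : Fin r → Ω, (∀ j, ∑ i, c i * ψ (u i) (π j) = 0) → c = 0 := by
  induction r with
  | zero => exact ⟨0, 0, finZeroElim, finZeroElim, fun _ _ => Subsingleton.elim _ _,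
      fun _ _ => Subsingleton.elim _ _⟩
  | succ r ih =>
    obtain ⟨u, w', π, h1, h2, h3⟩ := ih (by omega)
    obtain ⟨x, x1, x2⟩ := (Submodule.ne_bot_iff _).1 (LinearMap.ker_ne_bot_of_finrank_lt
      (f := LinearMap.pi fun j => (Finsupp.lapply (π j)).comp ψ) (by simpa using hr))
    have x3 : ∀ j, ψ x (π j) = 0 := fun j => congrFun (LinearMap.mem_ker.1 x1) j
    obtain ⟨a, a0, v', v1, v2⟩ := piv V (w := ψ x) fun e => x2 (hψ (by rw [e, map_zero]))
    have v3 : ∀ j, v' (π j) = 0 := fun j => (v2 _).unique (by simpa [x3] using V.val_zero)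
    refine ⟨Fin.cons ((ψ x a)⁻¹ • x) u, Fin.cons v' w', Fin.cons a π,
      Fin.cases (by simpa using v2) h1, fun c hc => ?_, fun c hc => ?_⟩
    · have e1 := h2 (fun i => c i.succ) fun j => by
        simpa [Fin.sum_univ_succ, v3] using hc j.succ
      have e2 : ∀ i, c (Fin.succ i) = 0 := congrFun e1
      exact funext (Fin.cases (by simpa [Fin.sum_univ_succ, e2, v1] using hc 0) e2)
    · have e1 := h3 (fun i => c i.succ) fun j => by
        simpa [Fin.sum_univ_succ, x3] using hc j.succ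
      have e2 : ∀ i, c (Fin.succ i) = 0 := congrFun e1
      exact funext (Fin.cases (by simpa [Fin.sum_univ_succ, e2, a0] using hc 0) e2)

section

variable (V : Pl k Ω T) (j₁ : F →+* F₁) (j₂ : F →+* F₂)

/-- The reduction of functions. -/
def Red (u : F₁) (u' : F₂) : Prop := ∃ z ∈ RI V j₁ j₂, z.2 ≠ 0 ∧ (u, u') * z ∈ RI V j₁ j₂

variable {V j₁ j₂}

theorem red_of {u : F₁} {u' : F₂} (h : (u, u') ∈ RI V j₁ j₂) : Red V j₁ j₂ u u' :=
  ⟨1, one_mem _, one_ne_zero, by rwa [mul_one]⟩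

theorem Red.mul {u w : F₁} {u' w' : F₂} (h : Red V j₁ j₂ u u') (h' : Red V j₁ j₂ w w') :
    Red V j₁ j₂ (u * w) (u' * w') := by
  obtain ⟨z, h1, h2, h3⟩ := h
  obtain ⟨y, h4, h5, h6⟩ := h'
  refine ⟨z * y, mul_mem h1 h4, mul_ne_zero h2 h5, ?_⟩
  rw [← Prod.mk_mul_mk, mul_mul_mul_comm]
  exact mul_mem h3 h6

theorem red_div {a b : F₁} {a' b' : F₂} (ha : (a, a') ∈ RI V j₁ j₂) (hb : (b, b') ∈ RI V j₁ j₂)
    (h : b ≠ 0) (h' : b' ≠ 0) : Red V j₁ j₂ (a / b) (a' / b') :=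
  ⟨(b, b'), hb, h', by rwa [Prod.mk_mul_mk, div_mul_cancel₀ _ h, div_mul_cancel₀ _ h']⟩

end

variable [CFF k F] [CFF Ω F₁] [CFF T F₂] {V : Pl k Ω T} {j₁ : F →+* F₁} {j₂ : F →+* F₂}
  {s : Plk Ω F₁ → Plk T F₂}

theorem Red.eq (h₁ : IsBC (algebraMap k Ω) j₁) (h₂ : IsBC (algebraMap k T) j₂) {u : F₁}
    {u' w' : F₂} (h : Red V j₁ j₂ u u') (h' : (u, w') ∈ RI V j₁ j₂) : u' = w' := by
  obtain ⟨z, h1, h2, h3⟩ := h
  have h4 := add_mem h3 (mul_mem (smul_mem V.val_one.neg h') h1)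
  rw [← add_mul] at h4
  have h5 := ri_zero h₁ h₂ (a' := (u' - w') * z.2) (V := V) (by
    convert h4 using 1
    simp [Prod.ext_iff, sub_eq_add_neg])
  exact sub_eq_zero.1 ((mul_eq_zero.1 h5).resolve_right h2)

theorem Red.key [CharZero k] (B : BCX) (h₁ : IsBC (algebraMap k Ω) j₁)
    (h₂ : IsBC (algebraMap k T) j₂)
    (hs : ∀ P f b c, pv P (j₁ f) b → V.Val b c → pv (s P) (j₂ f) c) {u : F₁} {u' : F₂}
    (h : Red V j₁ j₂ u u') (hu : u' ≠ 0) : u ≠ 0 ∧ (dv Ω u).mapDomain s = dv T u' := by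
  obtain ⟨⟨b, b'⟩, h1, h2, h3⟩ := h
  have h4 := ri_ne h₁ h₂ h3 (mul_ne_zero hu h2)
  have h5 := ri_key B h₁ h₂ hs h3 (mul_ne_zero hu h2)
  rw [dv_mul (left_ne_zero_of_mul h4) (right_ne_zero_of_mul h4), dv_mul hu h2,
    Finsupp.mapDomain_add, ri_key B h₁ h₂ hs h1 h2] at h5
  exact ⟨left_ne_zero_of_mul h4, add_right_cancel h5⟩

omit [CFF Ω F₁] in
theorem exists_coord (h₁ : IsBC (algebraMap k Ω) j₁) {ι : Type} (β : Module.Basis ι k F) {a : F₁}
    (ha : a ∈ Algebra.adjoin Ω (Set.range j₁)) :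
    ∃ w, Finsupp.linearCombination Ω (fun i => j₁ (β i)) w = a := by
  rw [← Subalgebra.mem_toSubmodule, Algebra.adjoin_eq_span, ← MonoidHom.coe_mrange j₁,
    Submonoid.closure_eq] at ha
  refine (Submodule.span_le.2 ?_ : _ ≤ LinearMap.range _) ha
  rintro _ ⟨f, rfl⟩
  exact ⟨_, (lc_base h₁.comm β 1 f).trans (one_smul _ _)⟩

omit [CFF k F] [CFF Ω F₁] in
theorem exists_den (h₁ : IsBC (algebraMap k Ω) j₁) (u : F₁) :
    ∃ b ∈ Algebra.adjoin Ω (Set.range j₁), b ≠ 0 ∧ b * u ∈ Algebra.adjoin Ω (Set.range j₁) := by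
  have h := h₁.gen (IntermediateField.adjoin Ω (Set.range j₁)).toSubfield
    (fun a => IntermediateField.algebraMap_mem _ a)
    fun z => IntermediateField.subset_adjoin _ _ ⟨z, rfl⟩
  obtain ⟨a, ha, b, hb, e⟩ := (IntermediateField.mem_adjoin_iff_div (F := Ω) (S := Set.range j₁)
    (x := u)).1 (by
      change u ∈ (IntermediateField.adjoin Ω (Set.range j₁)).toSubfield
      rw [h]; trivial)
  by_cases h0 : b = 0
  · exact ⟨1, one_mem _, one_ne_zero, by simp [e, h0]⟩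
  · exact ⟨b, hb, h0, by rwa [e, mul_div_cancel₀ _ h0]⟩

theorem exists_sc (V : Pl k Ω T) (h₁ : IsBC (algebraMap k Ω) j₁) (h₂ : IsBC (algebraMap k T) j₂)
    {a : F₁} (ha : a ∈ Algebra.adjoin Ω (Set.range j₁)) (h0 : a ≠ 0) :
    ∃ (μ : Ω) (a' : F₂), μ ≠ 0 ∧ a' ≠ 0 ∧ (μ • a, a') ∈ RI V j₁ j₂ := by
  let β := Module.Basis.ofVectorSpace k F
  obtain ⟨w, rfl⟩ := exists_coord h₁ β ha
  obtain ⟨i, i0, w', w1, w2⟩ := piv V (w := w) fun e => h0 (by rw [e, map_zero])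
  refine ⟨_, _, inv_ne_zero i0, fun e => ?_, by simpa using lc_mem β w2⟩
  have : w' = 0 := indep_inf h₂ β.linearIndependent (e.trans (map_zero _).symm)
  simp [this] at w1

theorem dg_map {A B : Type} (s : A → B) (D : A →₀ ℤ) : dg (D.mapDomain s) = dg D := by
  induction D using Finsupp.induction_linear with
  | zero => simp
  | add f g hf hg => rw [Finsupp.mapDomain_add, map_add, map_add, hf, hg]
  | single a n => rw [Finsupp.mapDomain_single, dg_sgl, dg_sgl]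

theorem isBas_of {W : Submodule T F₂} [FiniteDimensional T W] {n : ℕ} {b : Fin n → F₂}
    (h : LinearIndependent T b) (hb : ∀ i, b i ∈ W) (hn : Module.finrank T W = n) : IsBas W b :=
  ⟨h, Submodule.eq_of_le_of_finrank_eq (Submodule.span_le.2 (Set.range_subset_iff.2 hb))
    (by rw [finrank_span_eq_card h, Fintype.card_fin, hn])⟩

theorem bases [CharZero k] (B : BCX) (h₁ : IsBC (algebraMap k Ω) j₁)
    (h₂ : IsBC (algebraMap k T) j₂)
    (hs : ∀ P f b c, pv P (j₁ f) b → V.Val b c → pv (s P) (j₂ f) c) (D : Plk Ω F₁ →₀ ℤ) (n : ℕ)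
    (hD : 2 * (gen k F : ℤ) ≤ dg D) (hn : (n : ℤ) = dg D + 1 - gen k F) :
    ∃ (b : Fin n → F₁) (b' : Fin n → F₂), IsBas (LL Ω D) b ∧
      IsBas (LL T (Finsupp.mapDomain s D)) b' ∧ ∀ i, Red V j₁ j₂ (b i) (b' i) := by
  classical
  have n1 : Module.finrank Ω (LL Ω D) = n := by
    have := RR_large (D := D) (by rw [P025H492.dg_can_eq, h₁.gen_eq]; omega)
    rw [h₁.gen_eq] at this
    omega
  have n2 : Module.finrank T (LL T (D.mapDomain s)) = n := by
    have := RR_large (D := D.mapDomain s) (by rw [P025H492.dg_can_eq, h₂.gen_eq, dg_map]; omega)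
    rw [h₂.gen_eq, dg_map] at this
    omega
  let β := Module.Basis.ofVectorSpace k F
  let γ := Module.finBasis Ω (LL Ω D)
  choose d d1 d2 d3 using fun i => exists_den h₁ (γ i : F₁)
  obtain ⟨μ, b', μ0, b0, hb⟩ := exists_sc V h₁ h₂ (prod_mem fun i (_ : i ∈ Finset.univ) => d1 i)
    (Finset.prod_ne_zero_iff.2 fun i _ => d2 i)
  have b1 := ri_ne h₁ h₂ hb b0
  set b := μ • ∏ i, d i with hb'
  choose w hw using fun i => exists_coord h₁ β (a := b * γ i) (by
    rw [hb', ← Finset.prod_erase_mul _ _ (Finset.mem_univ i), smul_mul_assoc, mul_assoc]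
    exact Subalgebra.smul_mem _ (mul_mem (prod_mem fun i _ => d1 i) (d3 i)) _)
  have hψ : ∀ x : LL Ω D,
      Finsupp.linearCombination Ω (fun i => j₁ (β i)) (γ.constr Ω w x) = b * x := fun x =>
    LinearMap.congr_fun (f := (Finsupp.linearCombination Ω fun i => j₁ (β i)).comp (γ.constr Ω w))
      (g := (LinearMap.mulLeft Ω b).comp (LL Ω D).subtype) (γ.ext fun i => by simp [hw]) x
  obtain ⟨u, w', π, e1, e2, e3⟩ := echelon V (γ.constr Ω w) (fun x y h => Subtype.ext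
    (mul_left_cancel₀ b1 (by rw [← hψ, ← hψ, h]))) n n1.ge
  have r : ∀ i, Red V j₁ j₂ (u i) (Finsupp.linearCombination T (fun i => j₂ (β i)) (w' i) / b') :=
    fun i => by
      have := red_div (lc_mem (j₁ := j₁) (j₂ := j₂) β (e1 i)) hb b1 b0
      rwa [hψ, mul_div_cancel_left₀ _ b1] at this
  have i2 : LinearIndependent T
      fun i => Finsupp.linearCombination T (fun i => j₂ (β i)) (w' i) / b' := by
    refine Fintype.linearIndependent_iff.2 fun c hc => congrFun (e2 c fun j => ?_)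
    have : ∑ i, c i • w' i = 0 := indep_inf h₂ β.linearIndependent (by
      simp only [← smul_div_assoc, ← Finset.sum_div, div_eq_zero_iff, b0, or_false] at hc
      simpa using hc)
    simpa using DFunLike.congr_fun this (π j)
  refine ⟨fun i => u i, _, isBas_of ?_ (fun i => (u i).2) n1, isBas_of i2 (fun i => ?_) n2, r⟩
  · refine LinearIndependent.map' (Fintype.linearIndependent_iff.2 fun c hc =>
      congrFun (e3 c fun j => ?_)) (LL Ω D).subtype (Submodule.ker_subtype _)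
    simpa using DFunLike.congr_fun (congrArg (γ.constr Ω w) hc) (π j)
  · obtain ⟨k1, k2⟩ := (r i).key B h₁ h₂ hs (i2.ne_zero i)
    have k3 : -D ≤ dv Ω (u i : F₁) := fun P => by
      rw [dv_apply]
      exact (mem_LL.1 (u i).2).resolve_left k1 P
    have k4 := Finsupp.mapDomain_mono (f := s) k3
    rw [k2] at k4
    refine mem_LL.2 (Or.inr fun P => ?_)
    have := k4 P
    rwa [dv_apply, show (-D).mapDomain s = -D.mapDomain s from
      map_neg (Finsupp.mapDomain.addMonoidHom s) D] at this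

theorem coords (h₁ : IsBC (algebraMap k Ω) j₁) (h₂ : IsBC (algebraMap k T) j₂) {m : ℕ}
    {e : Fin m → F} (he : LinearIndependent k e) (c : Fin m → Ω) (u' : F₂)
    (h : Red V j₁ j₂ (∑ a, c a • j₁ (e a)) u') :
    ∃ c' : Fin m → T, (∀ a, V.Val (c a) (c' a)) ∧ u' = ∑ a, c' a • j₂ (e a) := by
  have key : ∀ {c : Fin m → Ω} {c' : Fin m → T}, (∀ a, V.Val (c a) (c' a)) →
      (∑ a, c a • j₁ (e a), ∑ a, c' a • j₂ (e a)) ∈ RI V j₁ j₂ := fun h => by
    rw [prod_mk_sum]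
    exact sum_mem fun a _ => gn_mem (h a) _
  by_cases hc : ∀ a, c a ∈ V.O
  · exact ⟨_, fun a => Pl.val_of_mem (hc a), h.eq h₁ h₂ (key fun a => Pl.val_of_mem (hc a))⟩
  exfalso
  obtain ⟨w, i, hi, hw⟩ := V.exists_rep (v := c) fun e => hc fun a => by simp [e, V.O.zero_mem]
  have c0 := Pl.Rep.ne_of ⟨i, hi, hw⟩ hi
  have h1 := (V.val_or (c i)).resolve_left fun h' => hc fun a => by
    simpa [c0] using mul_mem (hw a).1 h'
  have h2 := ((red_of (gn_mem h1 1)).mul h).eq h₁ h₂ (w' := ∑ a, (w a / w i) • j₂ (e a)) (by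
    convert key hw using 2
    simp [Finset.smul_sum, smul_smul, div_eq_inv_mul])
  have := Fintype.linearIndependent_iff.1 (h₂.indep he) _ (by rw [← h2]; simp) i
  simp [hi] at this

end Spec

open Spec in
theorem spec : B_SPEC := by
  intro _ B k F Ω F₁ T F₂ _ _ _ _ _ _ _ _ _ _ _ _ _ _ _ j₁ j₂ h₁ h₂ V s hs
  refine ⟨Red V j₁ j₂, red_of (one_mem _), fun _ _ _ _ => Red.mul, ?_, bases B h₁ h₂ hs,
    fun m e he => coords h₁ h₂ he⟩
  rintro _ ⟨u, hu, rfl⟩
  obtain ⟨b, b1, b0, b2⟩ := exists_den h₁ u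
  obtain ⟨μ, a', μ0, a0, ha⟩ := exists_sc V h₁ h₂ b2 (mul_ne_zero b0 hu)
  obtain ⟨ν, b', ν0, b3, hb⟩ := exists_sc V h₁ h₂ b1 b0
  have h := (red_div ha hb (smul_ne_zero ν0 b0) b3).key B h₁ h₂ hs (div_ne_zero a0 b3)
  have e : μ • (b * u) / ν • b = algebraMap Ω F₁ (μ / ν) * u := by
    have : algebraMap Ω F₁ ν ≠ 0 := by simpa using ν0
    simp only [Algebra.smul_def, map_div₀]
    field_simp
  rw [e] at h
  rw [dv_mul (left_ne_zero_of_mul h.1) hu, dv_const, zero_add] at h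
  exact ⟨_, div_ne_zero a0 b3, h.2⟩

end Vale.Agent.P297Y.AJ
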