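import Vale.Agent.P297Y.AJ.Sk2

/-! The image of a group with a generic point is closed and irreducible. -/

set_option linter.all false

namespace Vale.Agent.P297Y.AJ

open Vale.Agent.P009.AV (Par AbVar IsMor IsZar rep_mk eval₂_smul_hom)
open MvPolynomial

namespace Wirr

variable {k L T ι : Type} [Field k] [Field L] [Field T] [Algebra k L] [Algebra k T] [Fintype ι]

/-- homogenization -/
theorem exists_hom (j : ι) (g : MvPolynomial ι k) : ∃ (q : MvPolynomial ι k) (n : ℕ),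
    q.IsHomogeneous n ∧ ∀ (R : Type) [CommRing R] [Algebra k R] (z : ι → R), z j = 1 →
      aeval z q = aeval z g := by
  refine ⟨∑ d ∈ Finset.range (g.totalDegree + 1),
    X j ^ (g.totalDegree - d) * homogeneousComponent d g, g.totalDegree, ?_, fun R _ _ z hz => ?_⟩
  · apply IsHomogeneous.sum
    intro d hd
    have h1 : d ≤ g.totalDegree := Nat.lt_succ_iff.mp (Finset.mem_range.mp hd)
    have h2 := ((isHomogeneous_X k j).pow (g.totalDegree - d)).mul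
      (homogeneousComponent_isHomogeneous d g)
    rwa [one_mul, Nat.sub_add_cancel h1] at h2
  · conv_rhs => rw [← sum_homogeneousComponent g]
    rw [map_sum, map_sum]
    refine Finset.sum_congr rfl fun d _ => ?_
    rw [map_mul, map_pow, aeval_X, hz, one_pow, one_mul]

theorem aeval_div {p : MvPolynomial ι k} {n : ℕ} (hp : p.IsHomogeneous n) (x : ι → L) (j : ι) :
    aeval (fun i => x i / x j) p = aeval x p / x j ^ n := by
  have := eval₂_smul_hom (algebraMap k L) hp (x j)⁻¹ x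
  rw [aeval_def, aeval_def, div_eq_inv_mul, ← inv_pow, ← this]
  congr 1
  funext i
  simp [div_eq_inv_mul]

theorem zero_of_rep {V : Pl k L T} {v : ι → L} {w : ι → T} (h : V.Rep v w)
    {p : MvPolynomial ι k} {n : ℕ} (hp : p.IsHomogeneous n) (h0 : aeval v p = 0) :
    aeval w p = 0 := by
  obtain ⟨j, hj, -⟩ := id h
  have h1 := h.val_hom hj hp
  rw [h0, zero_div] at h1
  exact (div_eq_zero_iff.1 (h1.unique V.val_zero)).resolve_right (pow_ne_zero _ hj)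

theorem eval_mk {v : ι → k} (hv : v ≠ 0) {p : MvPolynomial ι k} {n : ℕ}
    (hp : p.IsHomogeneous n) :
    eval (Projectivization.mk k v hv).rep p = 0 ↔ aeval v p = 0 := by
  obtain ⟨c, hc, e⟩ := rep_mk hv
  have h1 := eval₂_smul_hom (RingHom.id k) hp c v
  rw [e, ← eval₂_id, h1, aeval_def, mul_eq_zero, or_iff_right (pow_ne_zero _ hc)]
  rfl

end Wirr

open Wirr in
theorem wirr : B_WIRR := by
  intro plt k Ω G G' ι _ _ _ _ _ _ _ W h
  have hx : ∀ a, ∃ V : Pl k Ω k, V.Rep (W.Φ' W.α₁) (W.Φ a) := fun a => by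
    obtain ⟨V, h1, -⟩ := W.gen a a
    exact ⟨V, h1 ▸ W.sp_rep V W.α₁⟩
  have hz : ∀ a (p : MvPolynomial ι k) n, p.IsHomogeneous n → aeval (W.Φ' W.α₁) p = 0 →
      aeval (W.Φ a) p = 0 := fun a p n hp h0 => (hx a).elim fun V hV => zero_of_rep hV hp h0
  refine ⟨⟨{p | (∃ n, p.IsHomogeneous n) ∧ aeval (W.Φ' W.α₁) p = 0}, fun p hp => hp.1,
    fun P => ⟨?_, fun hP => ?_⟩⟩, ⟨_, 0, rfl⟩, ?_⟩
  · rintro ⟨a, rfl⟩ p ⟨⟨n, hp⟩, h0⟩
    exact (eval_mk (h a) hp).2 (hz a p n hp h0)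
  · obtain ⟨j, hj⟩ := Function.ne_iff.1 P.rep_nonzero
    have hj' : P.rep j ≠ 0 := hj
    have h1 : W.Φ' W.α₁ j ≠ 0 := fun e =>
      hj' (by simpa using hP (X j) ⟨⟨1, isHomogeneous_X k j⟩, by rw [aeval_X, e]⟩)
    obtain ⟨V, hV⟩ := plt.e1 k Ω k (MvPolynomial ι k)
      (aeval fun i => W.Φ' W.α₁ i / W.Φ' W.α₁ j) (aeval fun i => P.rep i / P.rep j) fun g hg => by
        obtain ⟨q, n, hq, e⟩ := exists_hom j g
        rw [← e _ _ (div_self h1), aeval_div hq, div_eq_zero_iff,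
          or_iff_left (pow_ne_zero _ h1)] at hg
        have h2 : aeval P.rep q = 0 := hP q ⟨⟨n, hq⟩, hg⟩
        rw [← e _ _ (div_self hj'), aeval_div hq, h2, zero_div]
    have h3 : V.Rep (W.Φ' W.α₁) P.rep := ⟨j, hj', fun i => by simpa using hV (X i)⟩
    refine ⟨W.sp V W.α₁, ?_⟩
    have h4 := ((W.sp_rep V W.α₁).par h3 (Pl.par_refl _)).mk_eq (h _) P.rep_nonzero
    rwa [P.mk_rep] at h4
  · rintro Y₁ Y₂ ⟨I₁, h1, e₁⟩ ⟨I₂, h2, e₂⟩ hY
    by_contra hc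
    obtain ⟨c₁, c₂⟩ := not_or.1 hc
    obtain ⟨_, ⟨a₁, rfl⟩, n₁⟩ := Set.not_subset.1 c₁
    obtain ⟨_, ⟨a₂, rfl⟩, n₂⟩ := Set.not_subset.1 c₂
    rw [e₁] at n₁
    rw [e₂] at n₂
    push Not at n₁ n₂
    obtain ⟨f₁, m₁, z₁⟩ := n₁
    obtain ⟨f₂, m₂, z₂⟩ := n₂
    obtain ⟨d₁, g₁⟩ := h1 f₁ m₁
    obtain ⟨d₂, g₂⟩ := h2 f₂ m₂
    have x₁ : aeval (W.Φ' W.α₁) f₁ ≠ 0 := fun e =>
      z₁ ((eval_mk (h a₁) g₁).2 (hz a₁ f₁ d₁ g₁ e))
    have x₂ : aeval (W.Φ' W.α₁) f₂ ≠ 0 := fun e =>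
      z₂ ((eval_mk (h a₂) g₂).2 (hz a₂ f₂ d₂ g₂ e))
    obtain ⟨j, hj⟩ := Function.ne_iff.1 ((hx 0).elim fun V hV => hV.ne)
    have hj' : W.Φ' W.α₁ j ≠ 0 := hj
    have g₃ := g₁.mul g₂
    obtain ⟨V, c, hV, hc0, hμ⟩ := plt.nst k Ω ι (fun i => W.Φ' W.α₁ i / W.Φ' W.α₁ j)
      (aeval (W.Φ' W.α₁) (f₁ * f₂) / W.Φ' W.α₁ j ^ (d₁ + d₂))
      (div_ne_zero (by rw [map_mul]; exact mul_ne_zero x₁ x₂) (pow_ne_zero _ hj'))
    have r₁ := W.sp_rep V W.α₁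
    have hw : W.Φ (W.sp V W.α₁) j ≠ 0 := fun e => by
      obtain ⟨l, hl, hr⟩ := id r₁
      have h5 := hr j
      rw [e, zero_div, ← inv_div] at h5
      exact h5.not_mem (div_ne_zero (r₁.ne_of hl) hj') (hV l)
    have h6 := (r₁.val_hom hw g₃).unique hμ
    have h7 : aeval (W.Φ (W.sp V W.α₁)) (f₁ * f₂) ≠ 0 := fun e => hc0 (by rw [← h6, e, zero_div])
    rw [map_mul] at h7
    rcases hY ⟨W.sp V W.α₁, rfl⟩ with h8 | h8
    · exact left_ne_zero_of_mul h7 ((eval_mk (h _) g₁).1 ((e₁ _).1 h8 f₁ m₁))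
    · exact right_ne_zero_of_mul h7 ((eval_mk (h _) g₂).1 ((e₂ _).1 h8 f₂ m₂))

end Vale.Agent.P297Y.AJ
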