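import Vale.Agent.P297Y.AJ.W3
import Vale.Agent.P297Y.AJ.Wirr
import Vale.Agent.P297Y.AJ.Plt
import Vale.Agent.P297Y.AJ.Nm
import Vale.Agent.P297Y.AJ.Jw
import Vale.Agent.P297Y.AJ.Jac2
import Vale.Agent.P297Y.AJ.Gen
import Vale.Agent.P297Y.AJ.Spec
import Vale.Agent.P297Y.AJ.Wdc

/-! The Jacobian of a curve. -/

namespace Vale.Agent.P297Y.AJ

theorem weil : WEIL := weil_of wn wirr wa plt nm

theorem jac : JAC :=
  jac_of jw jac2 plt (bcx plt) (genb plt (bcx plt)) (spec plt (bcx plt)) th weil (wdc plt) (red plt)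

end Vale.Agent.P297Y.AJ
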