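import Vale.Agent.P297Y.AJ.Pl
import Vale.Agent.P297Y.AJ.Stmt
import Vale.Agent.P025.R2.H816.BC1

/-! The algebraic Albanese variety: definitions and statements of the blocks. -/

set_option linter.all false

namespace Vale.Agent.P297Y.AJ

open Vale.Agent.P009.AV (Par AbVar IsMor)
open Vale.Agent.P019P P025H816
open Vale.Agent.P297 (ClosedPt ZeroCycle Rat RatEquiv IsPrincipalCycle)
open Vale.Agent.P299

/-! ### Places of function fields -/

section

variable {k F T F' : Type} [Field k] [Field F] [Field T] [Field F'] [Algebra k F] [Algebra k T]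
  [Algebra T F'] [CFF T F']

/-- `f` has the value `c` at `P`. -/
def pv (P : Plk T F') (f : F') (c : T) : Prop := f - algebraMap T F' c ∈ Mge P 1

theorem pv_mem {P : Plk T F'} {f : F'} {c : T} (h : pv P f c) : f ∈ P.1 := by
  have h1 : f - algebraMap T F' c ∈ P.1 :=
    (mem_iff_ord P _).2 (h.imp_right fun h => by omega)
  simpa using add_mem h1 (P.2.1 c)

theorem exists_pv {P : Plk T F'} {f : F'} (h : f ∈ P.1) : ∃ c, pv P f c :=
  (exists_cst P h).imp fun _ h => h.imp sub_eq_zero.2 fun h => by omega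

theorem pv_cst (P : Plk T F') (c : T) : pv P (algebraMap T F' c) c := Or.inl (sub_self _)

theorem pv_unique {P : Plk T F'} {f : F'} {c d : T} (h : pv P f c) (h' : pv P f d) : c = d := by
  by_contra hne
  have h1 := sub_mem h' h
  rw [sub_sub_sub_cancel_left, ← map_sub] at h1
  rcases h1 with h1 | h1
  · exact hne (sub_eq_zero.1 ((map_eq_zero _).1 h1))
  · rw [ord_const] at h1
    omega

theorem pv_add {P : Plk T F'} {f g : F'} {c d : T} (h : pv P f c) (h' : pv P g d) :
    pv P (f + g) (c + d) := by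
  have := add_mem h h'
  unfold pv
  rw [map_add]
  convert this using 1
  ring

theorem pv_mul {P : Plk T F'} {f g : F'} {c d : T} (h : pv P f c) (h' : pv P g d) :
    pv P (f * g) (c * d) := by
  have h1 : g ∈ Mge P 0 := (mem_iff_ord P g).1 (pv_mem h')
  have h3 := mul_mem_Mge h h1
  rw [add_zero] at h3
  have h2 := add_mem h3 ((Mge P 1).smul_mem c h')
  unfold pv
  rw [map_mul]
  convert h2 using 1
  rw [Algebra.smul_def]
  ring

theorem pv_inv_mem {P : Plk T F'} {f : F'} {c : T} (h : pv P f c) (hc : c ≠ 0) : f⁻¹ ∈ P.1 := by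
  by_contra h1
  have h0 : f ≠ 0 := fun e => h1 (by rw [e, inv_zero]; exact zero_mem _)
  rw [mem_iff_ord, ord_inv, not_or] at h1
  exact hc (pv_unique h (Or.inr (by rw [map_zero, sub_zero]; omega)))

/-- The place of `F` with values in `T` given by a place of the base change. -/
noncomputable def pull (j : F →+* F')
    (h : ∀ a, j (algebraMap k F a) = algebraMap T F' (algebraMap k T a)) (P : Plk T F') :
    Pl k F T :=
  have e : ∀ a : P.1.comap j, ∃ c, pv P (j a) c := fun a => exists_pv a.2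
  { O := P.1.comap j
    cst := fun c => by
      change j _ ∈ P.1
      rw [h]
      exact P.2.1 _
    r :=
      { toFun := fun a => (e a).choose
        map_one' := pv_unique (e 1).choose_spec (by simpa using pv_cst P 1)
        map_mul' := fun a b => pv_unique (e (a * b)).choose_spec
          (by simpa using pv_mul (e a).choose_spec (e b).choose_spec)
        map_zero' := pv_unique (e 0).choose_spec (by simpa using pv_cst P 0)
        map_add' := fun a b => pv_unique (e (a + b)).choose_spec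
          (by simpa using pv_add (e a).choose_spec (e b).choose_spec) }
    r_cst := fun c => pv_unique (e _).choose_spec (by
      change pv P (j (algebraMap k F c)) _
      rw [h]
      exact pv_cst P _)
    loc := fun a ha => by
      change j _ ∈ P.1
      rw [map_inv₀]
      exact pv_inv_mem (e a).choose_spec ha }

theorem val_pull (j : F →+* F')
    (h : ∀ a, j (algebraMap k F a) = algebraMap T F' (algebraMap k T a)) (P : Plk T F') (f : F)
    (c : T) : (pull j h P).Val f c ↔ pv P (j f) c :=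
  ⟨fun ⟨h1, h2⟩ => h2 ▸ (exists_pv (P := P) (f := j f) h1).choose_spec,
    fun h1 => ⟨pv_mem h1, pv_unique (exists_pv (pv_mem h1)).choose_spec h1⟩⟩

/-- A place of a function field, as a place with values in the constants. -/
noncomputable def plc (P : Plk T F') : Pl T F' T := pull (RingHom.id F') (fun _ => rfl) P

theorem val_plc (P : Plk T F') (f : F') (c : T) : (plc P).Val f c ↔ pv P f c :=
  val_pull _ _ P f c

/-- `b` is a basis of the subspace `W`. -/
def IsBas {ι : Type} (W : Submodule T F') (b : ι → F') : Prop :=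
  LinearIndependent T b ∧ Submodule.span T (Set.range b) = W

/-- The coordinates of the product of the determinants. -/
noncomputable def phiF {R : Type} [CommRing R] {n m : ℕ}
    (lam : (Fin n → Fin n) → Fin n → Fin m → R) (a : Fin n → Fin m) : R :=
  ∑ σ : Fin n → Equiv.Perm (Fin n), ∑ τ : Equiv.Perm (Fin n),
    ((((∏ l, Equiv.Perm.sign (σ l)) * Equiv.Perm.sign τ : ℤˣ) : ℤ) : R) *
      ∏ j, lam (fun l => σ l j) (τ j) (a j)

/-- `c` is the point of projective space attached to the divisor `D` of degree zero. -/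
def IsPhi (g : ℕ) (P₀ : Plk T F') {m : ℕ} (e : Fin m → F') (D : Plk T F' →₀ ℤ)
    (c : (Fin (g + 1) → Fin m) → T) : Prop :=
  ∃ (s t : Fin (g + 1) → F') (lam : (Fin (g + 1) → Fin (g + 1)) → Fin (g + 1) → Fin m → T),
    IsBas (LL T (D + Finsupp.single P₀ (2 * g : ℤ))) s ∧
    IsBas (LL T (-((g + 1 : ℤ) • D) + Finsupp.single P₀ (2 * g : ℤ))) t ∧
    (∀ i i', (∏ l, s (i l)) * t i' = ∑ a, lam i i' a • e a) ∧ c = phiF lam

end

/-! ### The blocks on places -/

/-- Extension of homomorphisms to places. -/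
def E1 : Prop := ∀ (k L T R : Type) [Field k] [Field L] [Field T] [CommRing R] [Algebra k L]
  [Algebra k T] [Algebra k R] [IsAlgClosed T] (ψ : R →ₐ[k] L) (φ : R →ₐ[k] T),
  (∀ x, ψ x = 0 → φ x = 0) → ∃ V : Pl k L T, ∀ x, V.Val (ψ x) (φ x)

/-- Extension of places. -/
def E2 : Prop := ∀ (k L L' T : Type) [Field k] [Field L] [Field L'] [Field T] [Algebra k L]
  [Algebra k L'] [Algebra k T] [IsAlgClosed T] (σ : L' →ₐ[k] L) (U : Pl k L' T),
  ∃ V : Pl k L T, ∀ f c, U.Val f c → V.Val (σ f) c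

/-- A function that is finite at all places centred at a point of a normal variety is regular. -/
def PM : Prop := ∀ (k L : Type) [Field k] [Field L] [Algebra k L] [IsAlgClosed k]
  (A : Subalgebra k L) (φ : A →ₐ[k] k) (f : L),
  (∀ b ∈ A, IsIntegral A (b * f) → b * f ∈ A) →
  (∀ V : Pl k L k, (∀ a : A, V.Val a (φ a)) → f ∈ V.O) → ∃ b : A, φ b ≠ 0 ∧ b * f ∈ A

/-- An element fixed by all places that are trivial on a subfield lies in the subfield. -/
def GAL : Prop := ∀ (k Ω : Type) [Field k] [Field Ω] [Algebra k Ω] [CharZero k] [IsAlgClosed Ω]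
  (E : IntermediateField k Ω) (x : Ω),
  (∀ U : Pl k Ω Ω, (∀ l ∈ E, U.Val l l) → U.Val x x) → x ∈ E

/-- Finitely many elements have a specialisation that keeps one of them nonzero. -/
def NST : Prop := ∀ (k L σ : Type) [Field k] [Field L] [Algebra k L] [IsAlgClosed k] [Finite σ]
  (x : σ → L) (μ : L), μ ≠ 0 → ∃ (V : Pl k L k) (c : k), (∀ i, x i ∈ V.O) ∧ c ≠ 0 ∧ V.Val μ c

/-- A point is determined by its specialisations. -/
def DET : Prop := ∀ (k L ι : Type) [Field k] [Field L] [Algebra k L] [IsAlgClosed k] [Finite ι]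
  (y y' : ι → L), (∀ (V : Pl k L k) (w w' : ι → k), V.Rep y w → V.Rep y' w' → Par w w') →
  Par y y'

/-- The facts on places. -/
structure PLT : Prop where
  e1 : E1
  e2 : E2
  pm : PM
  gal : GAL
  nst : NST
  det : DET

/-! ### The blocks on curves -/

/-- Base change of the constants. -/
structure BCX : Prop where
  ex : ∀ (k F T : Type) [Field k] [Field F] [Field T] [Algebra k F] [Algebra k T] [CFF k F]
    [IsAlgClosed T], ∃ (F' : Type) (_ : Field F') (_ : Algebra T F') (_ : CFF T F')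
      (j : F →+* F'), IsBC (algebraMap k T) j
  bas : ∀ (k F T F' : Type) [Field k] [Field F] [Field T] [Field F'] [Algebra k F] [Algebra k T]
    [Algebra T F'] [CFF k F] [CFF T F'] [CharZero k] (j : F →+* F'), IsBC (algebraMap k T) j →
    ∀ (P₀ : Plk k F) (P₀' : Plk T F'), (∀ f c, pv P₀ f c → pv P₀' (j f) (algebraMap k T c)) →
    ∀ (n m : ℕ) (e : Fin m → F), 2 * gen k F ≤ n → IsBas (LL k (Finsupp.single P₀ (n : ℤ))) e →
    IsBas (LL T (Finsupp.single P₀' (n : ℤ))) fun a => j (e a)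
  pt : ∀ (k F T F' : Type) [Field k] [Field F] [Field T] [Field F'] [Algebra k F] [Algebra k T]
    [Algebra T F'] [CFF k F] [CFF T F'] [CharZero k] (j : F →+* F'), IsBC (algebraMap k T) j →
    ∀ e : Pl k F T, ∃! P : Plk T F', ∀ f c, e.Val f c → pv P (j f) c

/-- Independent generic points. -/
def GEN : Prop := ∀ (k F : Type) [Field k] [Field F] [Algebra k F] [CFF k F] [CharZero k] (N : ℕ),
  ∃ (Ω : Type) (_ : Field Ω) (_ : Algebra k Ω) (_ : IsAlgClosed Ω) (σ : Fin N → F →ₐ[k] Ω),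
    ∀ Q : Fin N → Plk k F, ∃ V : Pl k Ω k, ∀ i f c, pv (Q i) f c → V.Val (σ i f) c

/-- Specialisation of divisors and of spaces of sections. -/
def SPEC : Prop := ∀ (k F Ω F₁ T F₂ : Type) [Field k] [Field F] [Field Ω] [Field F₁] [Field T]
  [Field F₂] [Algebra k F] [Algebra k Ω] [Algebra k T] [Algebra Ω F₁] [Algebra T F₂] [CFF k F]
  [CFF Ω F₁] [CFF T F₂] [CharZero k] (j₁ : F →+* F₁) (j₂ : F →+* F₂),
  IsBC (algebraMap k Ω) j₁ → IsBC (algebraMap k T) j₂ →
  ∀ (V : Pl k Ω T) (s : Plk Ω F₁ → Plk T F₂),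
  (∀ P f b c, pv P (j₁ f) b → V.Val b c → pv (s P) (j₂ f) c) →
  ∃ Red : F₁ → F₂ → Prop, Red 1 1 ∧
    (∀ u u' w w', Red u u' → Red w w' → Red (u * w) (u' * w')) ∧
    (∀ D ∈ prn Ω F₁, Finsupp.mapDomain s D ∈ prn T F₂) ∧
    (∀ (D : Plk Ω F₁ →₀ ℤ) (n : ℕ), 2 * (gen k F : ℤ) ≤ dg D → (n : ℤ) = dg D + 1 - gen k F →
      ∃ (b : Fin n → F₁) (b' : Fin n → F₂), IsBas (LL Ω D) b ∧
        IsBas (LL T (Finsupp.mapDomain s D)) b' ∧ ∀ i, Red (b i) (b' i)) ∧
    ∀ (m : ℕ) (e : Fin m → F), LinearIndependent k e → ∀ (c : Fin m → Ω) (u' : F₂),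
      Red (∑ a, c a • j₁ (e a)) u' →
      ∃ c' : Fin m → T, (∀ a, V.Val (c a) (c' a)) ∧ u' = ∑ a, c' a • j₂ (e a)

/-- The embedding of the class group in projective space. -/
def TH : Prop := ∀ (T F : Type) [Field T] [Field F] [Algebra T F] [CFF T F] (g m : ℕ)
  (P₀ : Plk T F) (e : Fin m → F), gen T F = g →
  IsBas (LL T (Finsupp.single P₀ (((g + 2) * (2 * g) : ℕ) : ℤ))) e →
  (∀ D, dg D = 0 → ∃ c, IsPhi g P₀ e D c) ∧ (∀ D c, dg D = 0 → IsPhi g P₀ e D c → c ≠ 0) ∧
  ∀ D D' c c', dg D = 0 → dg D' = 0 → IsPhi g P₀ e D c → IsPhi g P₀ e D' c' →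
    (Par c c' ↔ D - D' ∈ prn T F)

/-! ### From a group with a generic point to an abelian variety -/

/-- The normalisation of the locus of a point. -/
def NM : Prop := ∀ (k Ω ι : Type) [Field k] [Field Ω] [Algebra k Ω] [CharZero k] [Fintype ι]
  (x : ι → Ω), ∃ (κ : Type) (_ : Fintype κ) (y : κ → Ω) (p : ι → ι → κ) (d : ℕ),
    (∀ w j, y (p w j) = x w ^ d * x j) ∧ ∀ w, x w ≠ 0 →
      (∀ m, IsIntegral (Algebra.adjoin k (Set.range fun j => x j / x w)) (y m / x w ^ (d + 1))) ∧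
      (∀ m, y m / x w ^ (d + 1) ∈ IntermediateField.adjoin k (Set.range fun j => x j / x w)) ∧
      ∀ f ∈ IntermediateField.adjoin k (Set.range fun j => x j / x w),
        IsIntegral (Algebra.adjoin k (Set.range fun j => x j / x w)) f →
        f ∈ Algebra.adjoin k (Set.range fun m => y m / x w ^ (d + 1))

/-- A group of points of projective space which is compatible with all places. -/
structure Weil (k Ω G G' ι : Type) [Field k] [Field Ω] [Algebra k Ω] [AddCommGroup G]
    [AddCommGroup G'] where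
  /-- the points over `k` -/
  Φ : G → ι → k
  /-- the points over `Ω` -/
  Φ' : G' → ι → Ω
  inj : ∀ a b, Par (Φ a) (Φ b) → a = b
  inj' : ∀ α β, Par (Φ' α) (Φ' β) → α = β
  /-- specialisation to `k` -/
  sp : Pl k Ω k → G' →+ G
  sp_rep : ∀ (V : Pl k Ω k) α, V.Rep (Φ' α) (Φ (sp V α))
  /-- specialisation to `Ω` -/
  sp' : Pl k Ω Ω → G' →+ G'
  sp'_rep : ∀ (U : Pl k Ω Ω) α, U.Rep (Φ' α) (Φ' (sp' U α))
  /-- the constant points -/
  cst : G →+ G'
  cst_par : ∀ a, Par (Φ' (cst a)) fun i => algebraMap k Ω (Φ a i)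
  /-- the first generic point -/
  α₁ : G'
  /-- the second generic point -/
  α₂ : G'
  gen : ∀ a b, ∃ V, sp V α₁ = a ∧ sp V α₂ = b

/-- The abelian variety. -/
def WEIL : Prop := ∀ (k Ω G G' ι : Type) [Field k] [Field Ω] [Algebra k Ω] [AddCommGroup G]
  [AddCommGroup G'] [Fintype ι] [CharZero k] [IsAlgClosed k] [IsAlgClosed Ω]
  (W : Weil k Ω G G' ι), ∃ (κ : Type) (_ : Fintype κ) (A : AbVar k κ) (e : G ≃+ A.G)
    (y : G' → κ → Ω), (∀ (V : Pl k Ω k) α, V.Rep (y α) (A.emb (e (W.sp V α))).rep) ∧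
    ∀ (τ : Type) [Fintype τ] (B : AbVar k τ) (f : A.G → B.G) (z : τ → Ω),
      (∀ V : Pl k Ω k, V.Rep z (B.emb (f (e (W.sp V W.α₁)))).rep) → IsMor A B f

/-- A morphism from a curve to an abelian variety kills the principal divisors. -/
def WDC : Prop := ∀ (k F τ : Type) [Field k] [Field F] [Algebra k F] [CFF k F] [CharZero k]
  [Fintype τ] (B : AbVar k τ) (φ : τ → F) (f : Plk k F → B.G),
  (∀ Q, (plc Q).Rep φ (B.emb (f Q)).rep) → ∀ D ∈ prn k F, (D.sum fun Q n => n • f Q) = 0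

/-- Sums of points commute with places. -/
def RED : Prop := ∀ (k L τ : Type) [Field k] [Field L] [Algebra k L] [IsAlgClosed k]
  [Fintype τ] (B : AbVar k τ) (N : ℕ) (z : Fin N → τ → L),
  (∀ i (V : Pl k L k), ∃ b, V.Rep (z i) (B.emb b).rep) → ∃ y : τ → L,
    ∀ (V : Pl k L k) (b : Fin N → B.G), (∀ i, V.Rep (z i) (B.emb (b i)).rep) →
      V.Rep y (B.emb (∑ i, b i)).rep

/-- The Jacobian. -/
def JAC : Prop := ∀ (k F : Type) [Field k] [Field F] [Algebra k F] [CFF k F] [CharZero k]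
  (P₀ : Plk k F), ∃ (κ : Type) (_ : Fintype κ) (A : AbVar k κ) (aj : (Plk k F →₀ ℤ) →+ A.G)
    (φ : κ → F), aj (Finsupp.single P₀ 1) = 0 ∧ (∀ D, dg D = 0 → aj D = 0 → D ∈ prn k F) ∧
    Function.Surjective aj ∧ (∀ Q, (plc Q).Rep φ (A.emb (aj (Finsupp.single Q 1))).rep) ∧
    ∀ (τ : Type) [Fintype τ] (B : AbVar k τ) (φ' : τ → F) (f : Plk k F → B.G),
      (∀ Q, (plc Q).Rep φ' (B.emb (f Q)).rep) → f P₀ = 0 →
      ∃ ψ : A.G →+ B.G, IsMor A B ψ ∧ ∀ Q, ψ (aj (Finsupp.single Q 1)) = f Q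

/-! ### The blocks on schemes -/

/-- The principal cycles. -/
def PRC : Prop := ∀ (X : S.PVar) (z : ZeroCycle X.X), IsPrincipalCycle X.str z →
  ∃ (E : Type) (_ : Field E) (_ : Algebra ℂ E) (_ : CFF ℂ E) (ctr : Plk ℂ E → ClosedPt X.X)
    (O : Subring (S.K X)) (ρ : O →+* E) (D : Plk ℂ E →₀ ℤ), D ∈ prn ℂ E ∧
    z = Finsupp.mapDomain ctr D ∧
    ∀ Q f c, S.HasValue (X := X) f (ctr Q).1 c → ∃ h : f ∈ O, pv Q (ρ ⟨f, h⟩) c

/-- The centre of a place. -/
def CTR : Prop := ∀ (X : S.PVar) (V : Pl ℂ (S.K X) ℂ),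
  ∃ x : ClosedPt X.X, ∀ f c, S.HasValue (X := X) f x.1 c → V.Val f c

/-- The zero-cycles are those of a point or of a curve. -/
def CORE : Prop := ∀ (X : S.Var) (κ : S.Div X.toPVar), S.dim X.toPVar = 2 → S.IsCanonical κ →
  ¬ S.HasSec κ → (∀ x y : ClosedPt X.X, RatEquiv X.str x y) ∨
    ∃ (F : Type) (_ : Field F) (_ : Algebra ℂ F) (_ : CFF ℂ F) (i : F →ₐ[ℂ] S.K X.toPVar)
      (π : ClosedPt X.X → Plk ℂ F),
      (∀ x f c, pv (π x) f c → S.HasValue (X := X.toPVar) (i f) x.1 c) ∧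
      ∀ z : ZeroCycle X.X, Finsupp.mapDomain π z ∈ prn ℂ F → z ∈ Rat X.str

/-! ### The chain -/

/-- block `PLT` has no hypothesis -/
def B_BCX : Prop := PLT → BCX
def B_GEN : Prop := PLT → BCX → GEN
def B_SPEC : Prop := PLT → BCX → SPEC
def B_WEIL : Prop := PLT → NM → WEIL
def B_WDC : Prop := PLT → WDC
def B_RED : Prop := PLT → RED
def B_JAC : Prop := PLT → BCX → GEN → SPEC → TH → WEIL → WDC → RED → JAC
def B_TOP : Prop := PLT → WDC → JAC → PRC → CTR → CORE → BlochFull

theorem blochFull_of (plt : PLT) (bcx : B_BCX) (gen : B_GEN) (spec : B_SPEC) (th : TH) (nm : NM)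
    (weil : B_WEIL) (wdc : B_WDC) (red : B_RED) (jac : B_JAC) (prc : PRC) (ctr : CTR)
    (top : B_TOP) (core : CORE) : BlochFull :=
  top plt (wdc plt) (jac plt (bcx plt) (gen plt (bcx plt)) (spec plt (bcx plt)) th (weil plt nm)
    (wdc plt) (red plt)) prc ctr core

end Vale.Agent.P297Y.AJ
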