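import Vale.Agent.P297Y.AJ.Sk

/-! The algebraic Albanese variety: statements of the finer blocks. -/

set_option linter.all false

namespace Vale.Agent.P297Y.AJ

open Vale.Agent.P009.AV (Par AbVar IsMor)
open Vale.Agent.P019P P025H816 MvPolynomial

/-- Rationality of a point over a subfield. -/
theorem rat_of (plt : PLT) {k Ω τ : Type} [Field k] [Field Ω] [Algebra k Ω] [CharZero k]
    [IsAlgClosed k] [IsAlgClosed Ω] [Finite τ] (E : IntermediateField k Ω) (z : τ → Ω)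
    (h : ∀ U : Pl k Ω Ω, (∀ l ∈ E, U.Val l l) → ∀ (V : Pl k Ω k) w w',
      (U.comp V).Rep z w → V.Rep z w' → Par w w') (i j : τ) : z i / z j ∈ E := by
  by_cases hj : z j = 0
  · rw [hj, div_zero]
    exact zero_mem _
  have h0 : z ≠ 0 := Function.ne_iff.2 ⟨j, hj⟩
  refine plt.gal k Ω E _ fun U hU => ?_
  obtain ⟨u, hu⟩ := U.exists_rep h0
  have := plt.det k Ω τ u z fun V w w' h1 h2 => h U hU V w w' (hu.comp h1) h2
  exact (hu.congr_right this h0).val_div hj i

theorem Pl.Val.not_mem' {k L : Type} [Field k] [Field L] [Algebra k L] {V : Pl k L k} {f : L}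
    {c : k} (h : V.Val f (c - algebraMap k k c)) (h0 : f ≠ 0) : f⁻¹ ∉ V.O :=
  Pl.Val.not_mem (by simpa using h) (inv_ne_zero h0)

/-- A place of a function field with values in the constants. -/
theorem exists_plk {k F : Type} [Field k] [Field F] [Algebra k F] [CFF k F] (e : Pl k F k) :
    ∃ Q : Plk k F, ∀ f c, pv Q f c ↔ e.Val f c := by
  have h0 : e.O ≠ ⊤ := fun h => by
    obtain ⟨x, hx, -⟩ := CFF.ex (k := k) (F := F)
    have h1 := Pl.val_of_mem (V := e) (f := x) (h ▸ trivial)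
    have h2 := h1.sub (e.val_cst (e.r ⟨x, h1.1⟩))
    refine h2.not_mem' (fun h3 => hx ?_) (h.ge trivial)
    rw [sub_eq_zero.1 h3]
    exact isAlgebraic_algebraMap _
  obtain ⟨Q, hQ⟩ : ∃ Q : Plk k F, Q.1 = e.O := ⟨⟨e.O, e.cst, h0⟩, rfl⟩
  have h1 : ∀ f c, e.Val f c → pv Q f c := fun f c h => by
    by_contra h2
    have h3 := not_or.1 h2
    refine (h.sub (e.val_cst c)).not_mem' h3.1 ?_
    rw [← hQ, mem_iff_ord, ord_inv]
    omega
  refine ⟨Q, fun f c => ⟨fun h => ?_, h1 f c⟩⟩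
  have h2 := Pl.val_of_mem (V := e) (hQ ▸ pv_mem h)
  rwa [pv_unique h (h1 _ _ h2)]

/-- A place is determined by the values it prescribes. -/
theorem plk_eq {k F : Type} [Field k] [Field F] [Algebra k F] [CFF k F] {e : Pl k F k}
    {P Q : Plk k F} (hP : ∀ f c, pv P f c → e.Val f c) (hQ : ∀ f c, pv Q f c → e.Val f c) :
    P = Q := by
  have key : ∀ P : Plk k F, (∀ f c, pv P f c → e.Val f c) → P.1 = e.O := fun P h => by
    ext f
    refine ⟨fun hf => (exists_pv hf).elim fun c hc => (h f c hc).mem, fun hf => ?_⟩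
    by_contra h1
    have h2 : f ≠ 0 := fun h3 => h1 (h3 ▸ zero_mem _)
    rw [mem_iff_ord, not_or] at h1
    exact (h f⁻¹ 0 (Or.inr (by rw [map_zero, sub_zero, ord_inv]; omega))).not_mem h2 hf
  exact Subtype.ext ((key P hP).trans (key Q hQ).symm)

/-- The group of divisor classes of degree zero is compatible with places. -/
def JW : Prop := ∀ (k F : Type) [Field k] [Field F] [Algebra k F] [CFF k F] [CharZero k]
  (P₀ : Plk k F), ∃ (Ω G G' ι : Type) (_ : Field Ω) (_ : Algebra k Ω) (_ : IsAlgClosed Ω)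
    (_ : AddCommGroup G) (_ : AddCommGroup G') (_ : Fintype ι) (W : Weil k Ω G G' ι)
    (cl : (Plk k F →₀ ℤ) →+ G) (pt : (F →ₐ[k] Ω) → G') (g : ℕ) (σ : Fin g → F →ₐ[k] Ω),
    Nonempty (F →ₐ[k] Ω) ∧ cl (Finsupp.single P₀ 1) = 0 ∧
    (∀ D, dg D = 0 → cl D = 0 → D ∈ prn k F) ∧ Function.Surjective cl ∧
    W.α₁ = ∑ i, pt (σ i) ∧
    ∀ (s : F →ₐ[k] Ω) (V : Pl k Ω k) (Q : Plk k F), (∀ f c, pv Q f c → V.Val (s f) c) →
      W.sp V (pt s) = cl (Finsupp.single Q 1)

def B_JW : Prop := PLT → BCX → GEN → SPEC → TH → JW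
def B_JAC2 : Prop := PLT → JW → WEIL → WDC → RED → JAC

theorem jac_of (h1 : B_JW) (h2 : B_JAC2) : B_JAC :=
  fun plt bcx gen spec th weil wdc red => h2 plt (h1 plt bcx gen spec th) weil wdc red

section

variable {k Ω G G' ι : Type} [Field k] [Field Ω] [Algebra k Ω] [AddCommGroup G] [AddCommGroup G']

variable (k) in
/-- The field of definition of a point. -/
def Fld (v : ι → Ω) : IntermediateField k Ω :=
  IntermediateField.adjoin k {f | ∃ i j, f = v i / v j}

/-- The local ring of the locus of `v` at the point `w`. -/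
def HL1 (v : ι → Ω) (w : ι → k) : Set Ω :=
  {f | ∃ (n : ℕ) (p q : MvPolynomial ι k), p.IsHomogeneous n ∧ q.IsHomogeneous n ∧
    aeval w q ≠ 0 ∧ f * aeval v q = aeval v p}

/-- Normality of the locus of `α`. -/
def Weil.NRM (W : Weil k Ω G G' ι) (α : G') : Prop :=
  ∀ a, ∀ f ∈ Fld k (W.Φ' α), (∀ V, W.sp V α = a → f ∈ V.O) → f ∈ HL1 (W.Φ' α) (W.Φ a)

end

/-- The normal model. -/
def WN : Prop := ∀ (k Ω G G' ι : Type) [Field k] [Field Ω] [Algebra k Ω] [AddCommGroup G]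
  [AddCommGroup G'] [Fintype ι] [CharZero k] [IsAlgClosed k] [IsAlgClosed Ω]
  (W : Weil k Ω G G' ι), ∃ (κ : Type) (_ : Fintype κ) (W' : Weil k Ω G G' κ),
    W'.sp = W.sp ∧ W'.α₁ = W.α₁ ∧ W'.NRM W'.α₁

/-- The image is closed and irreducible. -/
def WIRR : Prop := ∀ (k Ω G G' ι : Type) [Field k] [Field Ω] [Algebra k Ω] [AddCommGroup G]
  [AddCommGroup G'] [Fintype ι] [IsAlgClosed k] (W : Weil k Ω G G' ι) (h : ∀ a, W.Φ a ≠ 0),
  P009.AV.IrrClosed (Set.range fun a => Projectivization.mk k (W.Φ a) (h a))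

def B_WN : Prop := PLT → NM → WN
def B_WIRR : Prop := PLT → WIRR
def B_WA : Prop := PLT → WN → WIRR → WEIL

theorem weil_of (h1 : B_WN) (h2 : B_WIRR) (h3 : B_WA) : B_WEIL :=
  fun plt nm => h3 plt (h1 plt nm) (h2 plt)

end Vale.Agent.P297Y.AJ
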