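import Vale.Agent.P297Y.AJ.Sk2

/-! Groups of points compatible with places: basic facts. -/

set_option linter.all false

namespace Vale.Agent.P297Y.AJ

open Vale.Agent.P009.AV (Par)
open MvPolynomial Pl

variable {k Ω G G' ι : Type} [Field k] [Field Ω] [Algebra k Ω] [AddCommGroup G] [AddCommGroup G']

theorem par_symm {L : Type} [Field L] {v w : ι → L} (h : Par v w) : Par w v := fun i j => by
  rw [mul_comm (w i), mul_comm (w j), ← h j i]

theorem mem_fld (v : ι → Ω) (i j : ι) : v i / v j ∈ Fld k v :=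
  IntermediateField.subset_adjoin _ _ ⟨i, j, rfl⟩

theorem fld_le_of {v : ι → Ω} {E : IntermediateField k Ω} (h : ∀ i j, v i / v j ∈ E) :
    Fld k v ≤ E := IntermediateField.adjoin_le_iff.2 fun _ ⟨i, j, e⟩ => e ▸ h i j

/-- affine coordinates that are finite -/
theorem Pl.rep_of_mem {T : Type} [Field T] [Algebra k T] (V : Pl k Ω T) {v : ι → Ω} {j : ι}
    (hj : v j ≠ 0) {w : ι → T} (h : ∀ i, V.Val (v i / v j) (w i)) : w j = 1 ∧ V.Rep v w := by
  have h1 : w j = 1 := (h j).unique (by rw [div_self hj]; exact V.val_one)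
  exact ⟨h1, j, by rw [h1]; exact one_ne_zero, fun i => by rw [h1, div_one]; exact h i⟩

/-- The elements that two places exchange with elements of `E`. -/
def lnk (U U' : Pl k Ω Ω) (E : IntermediateField k Ω) : IntermediateField k Ω where
  carrier := {f | ∃ b ∈ E, U.Val f b ∧ U'.Val b f}
  mul_mem' := fun ⟨a, h1, h2, h3⟩ ⟨b, h4, h5, h6⟩ => ⟨_, mul_mem h1 h4, h2.mul h5, h3.mul h6⟩
  add_mem' := fun ⟨a, h1, h2, h3⟩ ⟨b, h4, h5, h6⟩ => ⟨_, add_mem h1 h4, h2.add h5, h3.add h6⟩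
  algebraMap_mem' c := ⟨_, E.algebraMap_mem c, U.val_cst c, U'.val_cst c⟩
  inv_mem' := fun f ⟨b, h1, h2, h3⟩ => by
    by_cases h : f = 0
    · exact ⟨0, zero_mem _, by rw [h, inv_zero]; exact U.val_zero,
        by rw [h, inv_zero]; exact U'.val_zero⟩
    · exact ⟨_, inv_mem h1, h2.inv (h3.ne_zero h), h3.inv h⟩

theorem fld_le_lnk {U U' : Pl k Ω Ω} {u v : ι → Ω} (h : U.Rep u v) (h' : U'.Rep v u) :
    Fld k u ≤ lnk U U' (Fld k v) := fld_le_of fun i j => by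
  by_cases hj : u j = 0
  · rw [hj, div_zero]
    exact zero_mem _
  · exact ⟨_, mem_fld v i j, h.val_div (h'.ne_of hj) i, h'.val_div hj i⟩

theorem Pl.Rep.fix {U : Pl k Ω Ω} {u : ι → Ω} (h : U.Rep u u) {f : Ω} (hf : f ∈ Fld k u) :
    U.Val f f := by
  obtain ⟨b, -, h1, h2⟩ := fld_le_lnk h (U' := ofHom (AlgHom.id k Ω))
    (rep_of_val h.ne fun i => val_ofHom _ _) hf
  rwa [h2.unique (val_ofHom _ _)] at h1 ⊢

namespace Weil

variable (W : Weil k Ω G G' ι)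

theorem ne (a : G) : W.Φ a ≠ 0 := by
  obtain ⟨V, h, -⟩ := W.gen a 0
  exact h ▸ (W.sp_rep V W.α₁).ne_right

theorem ne' (α : G') : W.Φ' α ≠ 0 := by
  obtain ⟨V, -⟩ := W.gen 0 0
  exact (W.sp_rep V α).ne

theorem sp_eq {V : Pl k Ω k} {α : G'} {a : G} (h : V.Rep (W.Φ' α) (W.Φ a)) : W.sp V α = a :=
  W.inj _ _ ((W.sp_rep V α).par h (par_refl _))

theorem sp'_eq {U : Pl k Ω Ω} {α β : G'} (h : U.Rep (W.Φ' α) (W.Φ' β)) : W.sp' U α = β :=
  W.inj' _ _ ((W.sp'_rep U α).par h (par_refl _))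

theorem sp_cst (V : Pl k Ω k) (a : G) : W.sp V (W.cst a) = a :=
  W.sp_eq ((V.rep_cst (W.ne a)).congr_left (par_symm (W.cst_par a)) (W.ne' _))

theorem sp'_cst (U : Pl k Ω Ω) (a : G) : W.sp' U (W.cst a) = W.cst a :=
  W.sp'_eq (((U.rep_cst (W.ne a)).congr_left (par_symm (W.cst_par a)) (W.ne' _)).congr_right
    (par_symm (W.cst_par a)) (W.ne' _))

theorem sp_comp (U : Pl k Ω Ω) (V : Pl k Ω k) (α : G') :
    W.sp (U.comp V) α = W.sp V (W.sp' U α) := W.sp_eq ((W.sp'_rep U α).comp (W.sp_rep V _))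

theorem fix {U : Pl k Ω Ω} {α : G'} (h : W.sp' U α = α) {f : Ω} (hf : f ∈ Fld k (W.Φ' α)) :
    U.Val f f := Rep.fix (by simpa only [h] using W.sp'_rep U α) hf

theorem fix' {U : Pl k Ω Ω} {α : G'} (h : ∀ f ∈ Fld k (W.Φ' α), U.Val f f) : W.sp' U α = α := by
  obtain ⟨j, hj⟩ := Function.ne_iff.1 (W.ne' α)
  exact W.sp'_eq ⟨j, hj, fun i => h _ (mem_fld _ i j)⟩

theorem fld_le [CharZero k] [IsAlgClosed Ω] (plt : PLT) {E : IntermediateField k Ω} {β : G'}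
    (h : ∀ U : Pl k Ω Ω, (∀ l ∈ E, U.Val l l) → W.sp' U β = β) : Fld k (W.Φ' β) ≤ E :=
  fun f hf => plt.gal k Ω E f fun U hU => W.fix (h U hU) hf

theorem fld_add_cst [CharZero k] [IsAlgClosed Ω] (plt : PLT) (α : G') (c : G) :
    Fld k (W.Φ' (α + W.cst c)) ≤ Fld k (W.Φ' α) :=
  W.fld_le plt fun U hU => by rw [map_add, W.fix' hU, W.sp'_cst]

theorem rat [CharZero k] [IsAlgClosed k] [IsAlgClosed Ω] (plt : PLT) {τ : Type} [Finite τ]
    {α : G'} {z : τ → Ω} {h : G → τ → k} (hz : ∀ V : Pl k Ω k, V.Rep z (h (W.sp V α))) (i j : τ) :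
    z i / z j ∈ Fld k (W.Φ' α) :=
  rat_of plt _ z (fun U hU V w w' h1 h2 => by
    have h3 := hz (U.comp V)
    rw [W.sp_comp, W.fix' hU] at h3
    exact par_trans (h1.par h3 (par_refl _)) ((hz V).par h2 (par_refl _)) (hz V).ne_right) i j

/-- Independent generic points specialise to all points. -/
theorem spz [IsAlgClosed k] [IsAlgClosed Ω] [Finite ι] (plt : PLT) {I : Type} [Finite I]
    {α : I → G'} (hα : ∀ a : I → G, ∃ V, ∀ i, W.sp V (α i) = a i) (β : I → G') :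
    ∃ U, ∀ i, W.sp' U (α i) = β i := by
  choose j hj using fun i => Function.ne_iff.1 (W.ne' (β i))
  obtain ⟨U, hU⟩ := plt.e1 k Ω Ω (MvPolynomial (I × ι) k)
    (aeval fun q => W.Φ' (α q.1) q.2 / W.Φ' (α q.1) (j q.1))
    (aeval fun q => W.Φ' (β q.1) q.2 / W.Φ' (β q.1) (j q.1)) fun p => not_imp_not.1 fun hp => by
      obtain ⟨V, c, h1, h2, h3⟩ := plt.nst k Ω (I × ι)
        (fun q => W.Φ' (β q.1) q.2 / W.Φ' (β q.1) (j q.1)) _ hp
      obtain ⟨V', h4⟩ := hα fun i => W.sp V (β i)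
      have h5 := fun q => val_of_mem (h1 q)
      refine (val_aeval (V := V') (y := fun q => V.r ⟨_, h1 q⟩) (fun q => ?_) p).ne_zero
        (by rw [← h3.unique (val_aeval h5 p)]; exact h2)
      obtain ⟨h6, h7⟩ := V.rep_of_mem (hj q.1) fun l => h5 (q.1, l)
      have h8 := ((W.sp_rep V' (α q.1)).congr_right
        (h4 q.1 ▸ (W.sp_rep V (β q.1)).par h7 (par_refl _)) h7.ne_right).val_div
        (j := j q.1) (by rw [h6]; exact one_ne_zero) q.2
      rwa [h6, div_one] at h8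
  exact ⟨U, fun i => W.sp'_eq ⟨j i, hj i, fun l => by simpa using hU (X (i, l))⟩⟩

/-- `α` is a generic point. -/
def Gen (α : G') : Prop := ∀ a, ∃ V, W.sp V α = a

theorem gen₁ : W.Gen W.α₁ := fun a => (W.gen a 0).imp fun _ h => h.1

theorem gen₂ : W.Gen W.α₂ := fun a => (W.gen 0 a).imp fun _ h => h.2

theorem Gen.add_cst {W : Weil k Ω G G' ι} {α : G'} (h : W.Gen α) (c : G) :
    W.Gen (α + W.cst c) := fun a => (h (a - c)).imp fun V hV => by
  rw [map_add, hV, W.sp_cst, sub_add_cancel]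

variable [IsAlgClosed k] [IsAlgClosed Ω] [Finite ι]

theorem Gen.spz {W : Weil k Ω G G' ι} (plt : PLT) {α : G'} (h : W.Gen α) (β : G') :
    ∃ U, W.sp' U α = β :=
  (W.spz plt (I := Unit) (α := fun _ => α) (fun a => (h (a ())).imp fun _ h _ => h)
    fun _ => β).imp fun _ h => h ()

/-- Two generic points are conjugate. -/
theorem Gen.tr {W : Weil k Ω G G' ι} (plt : PLT) {α β : G'} (hα : W.Gen α) (hβ : W.Gen β) :
    ∃ U : Pl k Ω Ω, W.sp' U α = β ∧ ∀ a, ∀ f ∈ Fld k (W.Φ' β), (∀ V, W.sp V β = a → f ∈ V.O) →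
      ∃ b ∈ Fld k (W.Φ' α), U.Val b f ∧ ∀ V, W.sp V α = a → b ∈ V.O := by
  obtain ⟨U, hU⟩ := hα.spz plt β
  obtain ⟨U', hU'⟩ := hβ.spz plt α
  refine ⟨U, hU, fun a f hf h => ?_⟩
  obtain ⟨b, h1, h2, h3⟩ := fld_le_lnk (hU' ▸ W.sp'_rep U' β) (hU ▸ W.sp'_rep U α) hf
  refine ⟨b, h1, h3, fun V hV => ?_⟩
  obtain ⟨b', h4, h5⟩ := (val_comp U' V _ _).1
    (val_of_mem (h (U'.comp V) (by rw [W.sp_comp, hU', hV])))
  exact h4.unique h2 ▸ h5.mem

theorem NRM.tr {W : Weil k Ω G G' ι} (plt : PLT) {α β : G'} (hα : W.Gen α) (hβ : W.Gen β)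
    (h : W.NRM α) : W.NRM β := fun a f hf hV => by
  have := Fintype.ofFinite ι
  obtain ⟨U, hU, h1⟩ := hα.tr plt hβ
  obtain ⟨b, h2, h3, h4⟩ := h1 a f hf hV
  obtain ⟨n, p, q, hp, hq, h5, h6⟩ := h a b h2 h4
  refine ⟨n, p, q, hp, hq, h5, ?_⟩
  obtain ⟨l, hl⟩ := Function.ne_iff.1 (W.ne' β)
  have h7 : U.Rep (W.Φ' α) (W.Φ' β) := hU ▸ W.sp'_rep U α
  have h8 := (h3.mul (h7.val_hom hl hq)).unique
    (by rw [← mul_div_assoc, h6]; exact h7.val_hom hl hp)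
  rwa [← mul_div_assoc, div_left_inj' (pow_ne_zero _ hl)] at h8

end Weil

end Vale.Agent.P297Y.AJ
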