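import Vale.Agent.P297Y.AJ.Hl

/-! The normal model of a group of points. -/

set_option linter.all false

namespace Vale.Agent.P297Y.AJ

open Vale.Agent.P009.AV (Par)
open MvPolynomial Pl

variable {k Ω G G' ι : Type} [Field k] [Field Ω] [Algebra k Ω] [AddCommGroup G] [AddCommGroup G']

/-- The valuation ring as a subalgebra. -/
def Pl.sub (V : Pl k Ω k) : Subalgebra k Ω := { V.O.toSubring with algebraMap_mem' := V.cst }

/-- The value of the elements of a subalgebra. -/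
def Pl.ev (V : Pl k Ω k) {A : Subalgebra k Ω} (h : A ≤ V.sub) : A →ₐ[k] k :=
  { V.r.comp (A.val.toRingHom.codRestrict V.O fun a => h a.2) with commutes' := V.r_cst }

theorem int_of_le {A : Subalgebra k Ω} {S : Type} [SetLike S Ω] [SubringClass S Ω] (B : S)
    (h : ∀ a ∈ A, a ∈ B) {x : Ω} (hx : IsIntegral A x) : IsIntegral B x :=
  hx.map_of_comp_eq (A.val.toRingHom.codRestrict B fun a => h a a.2) (RingHom.id Ω) rfl

theorem int_trans {A : Subalgebra k Ω} {s : Set Ω} (h : s ⊆ {x | IsIntegral A x}) {x : Ω}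
    (hx : IsIntegral (Algebra.adjoin k s) x) : IsIntegral A x :=
  isIntegral_trans (A := integralClosure A Ω) x (int_of_le (integralClosure A Ω) (fun a ha =>
    Algebra.adjoin_le (S := (integralClosure A Ω).restrictScalars k) h ha) hx)

theorem Pl.mem_of_int (V : Pl k Ω k) {A : Subalgebra k Ω} (h : A ≤ V.sub) {x : Ω}
    (hx : IsIntegral A x) : x ∈ V.O := by
  obtain ⟨y, rfl⟩ := IsIntegrallyClosed.algebraMap_eq_of_integral (int_of_le V.O h hx)
  exact y.2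

theorem fld_eq {x : ι → Ω} {w : ι} (hw : x w ≠ 0) :
    Fld k x = IntermediateField.adjoin k (Set.range fun j => x j / x w) :=
  le_antisymm (fld_le_of fun i j => by
      rw [← div_div_div_cancel_right₀ hw]
      exact div_mem (IntermediateField.subset_adjoin _ _ ⟨i, rfl⟩)
        (IntermediateField.subset_adjoin _ _ ⟨j, rfl⟩))
    (IntermediateField.adjoin_le_iff.2 (Set.range_subset_iff.2 fun j => mem_fld x j w))

theorem par_ne {L : Type} [Field L] {u v : ι → L} (h : Par u v) (hv : v ≠ 0) {j : ι}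
    (hj : u j ≠ 0) : v j ≠ 0 := fun e => by
  obtain ⟨l, hl⟩ := Function.ne_iff.1 hv
  exact mul_ne_zero hj hl (by rw [h j l, e, mul_zero])

namespace Weil

variable {W : Weil k Ω G G' ι}

theorem sp_eq_sp {V V' : Pl k Ω k} {α : G'} {c : ι → k} (h : V.Rep (W.Φ' α) c)
    (h' : V'.Rep (W.Φ' α) c) : W.sp V α = W.sp V' α :=
  W.sp_eq (h.congr_right (h'.par (W.sp_rep V' α) (par_refl _)) (W.ne _))

theorem rep_of_eq {V V' : Pl k Ω k} {α : G'} {c : ι → k} (h : V.Rep (W.Φ' α) c)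
    (h' : W.sp V' α = W.sp V α) : V'.Rep (W.Φ' α) c :=
  (W.sp_rep V' α).congr_right (h' ▸ (W.sp_rep V α).par h (par_refl _)) h.ne_right

variable (W) in
/-- The locus of `α` is unibranch at `a`. -/
def UB (α : G') (a : G) : Prop :=
  ∀ f ∈ Fld k (W.Φ' α), (∀ V, W.sp V α = a → f ∈ V.O) → ∃ c, ∀ V, W.sp V α = a → V.Val f c

variable [CharZero k] [IsAlgClosed k] [IsAlgClosed Ω] [Finite ι]

theorem UB.all (plt : PLT) {α : G'} {a : G} (hα : W.Gen α) (h : W.UB α a) (b : G) :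
    W.UB α b := fun f hf hV => by
  obtain ⟨U, hU, h1⟩ := (hα.add_cst (b - a)).tr plt hα
  obtain ⟨g, h2, h3, h4⟩ := h1 b f hf hV
  have e : ∀ V, W.sp V (α + W.cst (b - a)) = b ↔ W.sp V α = a := fun V => by
    rw [map_add, W.sp_cst, ← eq_sub_iff_add_eq, sub_sub_cancel]
  obtain ⟨c, hc⟩ := h g (W.fld_add_cst plt _ _ h2) fun V h5 => h4 V ((e V).2 h5)
  refine ⟨c, fun V h5 => ?_⟩
  obtain ⟨g', h6, h7⟩ := (val_comp U V _ _).1
    (hc (U.comp V) ((e _).1 (by rw [W.sp_comp, hU, h5])))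
  exact h6.unique h3 ▸ h7

end Weil

theorem wn : B_WN := by
  intro plt nm k Ω G G' ι _ _ _ _ _ _ _ _ _ W
  obtain ⟨κ, _, y, p, d, hp, hy⟩ := nm k Ω ι (W.Φ' W.α₁)
  refine ⟨κ, inferInstance, ?_⟩
  set x := W.Φ' W.α₁ with hx
  have hpw : ∀ w, x w ^ (d + 1) = y (p w w) := fun w => by rw [hp, pow_succ]
  have hpj : ∀ w, x w ≠ 0 → ∀ j, x j / x w = y (p w j) / x w ^ (d + 1) := fun w hw j => by
    rw [hp, pow_succ, mul_div_mul_left _ _ (pow_ne_zero _ hw)]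
  have fin : ∀ w, x w ≠ 0 → ∀ V : Pl k Ω k, (∀ j, x j / x w ∈ V.O) →
      ∀ m, y m / x w ^ (d + 1) ∈ V.O := fun w hw V hV m =>
    V.mem_of_int (Algebra.adjoin_le (Set.range_subset_iff.2 hV)) ((hy w hw).1 m)
  have fin' : ∀ (V : Pl k Ω k) w, W.Φ (W.sp V W.α₁) w ≠ 0 → x w ≠ 0 ∧ ∀ j, x j / x w ∈ V.O :=
    fun V w hw => ⟨(W.sp_rep V _).ne_of hw, fun j => ((W.sp_rep V _).val_div hw j).mem⟩
  have loc : ∀ w, x w ≠ 0 → ∀ V₀ : Pl k Ω k, (∀ j, x j / x w ∈ V₀.O) → ∀ f ∈ Fld k x,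
      (∀ V, W.sp V W.α₁ = W.sp V₀ W.α₁ → f ∈ V.O) →
      ∃ b ∈ Algebra.adjoin k (Set.range fun m => y m / x w ^ (d + 1)),
        b * f ∈ Algebra.adjoin k (Set.range fun m => y m / x w ^ (d + 1)) ∧
        ∃ c, c ≠ 0 ∧ V₀.Val b c := fun w hw V₀ h0 f hf hV => by
    obtain ⟨h1, h2, h3⟩ := hy w hw
    have h4 : Algebra.adjoin k (Set.range fun m => y m / x w ^ (d + 1)) ≤ V₀.sub :=
      Algebra.adjoin_le (Set.range_subset_iff.2 (fin w hw V₀ h0))
    obtain ⟨b, h5, h6⟩ := plt.pm k Ω (Algebra.adjoin k (Set.range fun m => y m / x w ^ (d + 1)))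
      (V₀.ev h4) f
      (fun b hb hi => h3 _ (mul_mem
          (Algebra.adjoin_le (S := (IntermediateField.adjoin k _).toSubalgebra)
            (Set.range_subset_iff.2 h2) hb) ((fld_eq hw).le hf))
        (int_trans (Set.range_subset_iff.2 h1) hi))
      fun V h => hV V (Weil.sp_eq_sp (c := fun j => V₀.r ⟨_, h0 j⟩)
        (V.rep_of_mem hw fun j => h ⟨_, hpj w hw j ▸ Algebra.subset_adjoin ⟨_, rfl⟩⟩).2
        (V₀.rep_of_mem hw fun j => val_of_mem (h0 j)).2)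
    exact ⟨b, b.2, h6, _, h5, val_of_mem (h4 b.2)⟩
  have ub : ∀ a, W.UB W.α₁ a := by
    obtain ⟨w, hw⟩ := Function.ne_iff.1 (W.ne' W.α₁)
    have h1 : ∀ m, ∃ r s : MvPolynomial ι k, aeval (fun j => x j / x w) s ≠ 0 ∧
        y m / x w ^ (d + 1) = aeval (fun j => x j / x w) r / aeval (fun j => x j / x w) s :=
      fun m => by
        obtain ⟨r, s, e⟩ := (IntermediateField.mem_adjoin_range_iff _ _ _).1 ((hy w hw).2.1 m)
        by_cases hs : aeval (fun j => x j / x w) s = 0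
        · exact ⟨0, 1, by simp, by simp [e, hs]⟩
        · exact ⟨r, s, hs, e⟩
    choose r s h1 h2 using h1
    obtain ⟨V₀, c, h3, h4, h5⟩ := plt.nst k Ω ι (fun j => x j / x w) _
      (Finset.prod_ne_zero_iff.2 fun m (_ : m ∈ Finset.univ) => h1 m)
    have h6 := fun j => val_of_mem (h3 j)
    rw [h5.unique (val_prod _ fun m _ => val_aeval h6 (s m))] at h4
    obtain ⟨h7, h8⟩ := V₀.rep_of_mem hw h6
    have h9 : ∀ b ∈ Algebra.adjoin k (Set.range fun m => y m / x w ^ (d + 1)), ∃ c,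
        ∀ V, W.sp V W.α₁ = W.sp V₀ W.α₁ → V.Val b c := fun b hb => by
      rw [Algebra.adjoin_range_eq_range_aeval] at hb
      obtain ⟨P, rfl⟩ := hb
      refine ⟨aeval (fun m => aeval (fun j => V₀.r ⟨_, h3 j⟩) (r m) /
        aeval (fun j => V₀.r ⟨_, h3 j⟩) (s m)) P, fun V hV => val_aeval (fun m => ?_) P⟩
      have h10 := fun j => (Weil.rep_of_eq h8 hV).val_div (j := w) (by rw [h7]; simp) j
      simp only [h7, div_one] at h10
      rw [h2]
      exact (val_aeval h10 _).div (val_aeval h10 _)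
        (Finset.prod_ne_zero_iff.1 h4 m (Finset.mem_univ _))
    refine Weil.UB.all plt W.gen₁ (a := W.sp V₀ W.α₁) fun f hf hV => ?_
    obtain ⟨b, h10, h11, c', h12, h13⟩ := loc w hw V₀ h3 f hf hV
    obtain ⟨c₁, h14⟩ := h9 _ h10
    obtain ⟨c₂, h15⟩ := h9 _ h11
    refine ⟨c₂ / c₁, fun V h => ?_⟩
    have := (h15 V h).div (h14 V h) (by rwa [(h14 V₀ rfl).unique h13])
    rwa [mul_div_cancel_left₀ _ (h13.ne_zero h12)] at this
  have h1 : ∀ a, ∃ ψ : κ → k, ∀ V, W.sp V W.α₁ = a → V.Rep y ψ := fun a => by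
    obtain ⟨w, hw⟩ := Function.ne_iff.1 (W.ne a)
    obtain ⟨V₀, h0⟩ := W.gen₁ a
    have h1 := (fin' V₀ w (h0 ▸ hw)).1
    choose c hc using fun m => ub a _ ((fld_eq h1).ge ((hy w h1).2.1 m)) fun V hV =>
      fin w h1 V (fin' V w (hV ▸ hw)).2 m
    exact ⟨c, fun V hV => (V.rep_of_mem (hpw w ▸ pow_ne_zero _ h1)
      fun m => hpw w ▸ hc m V hV).2⟩
  choose Ψ hΨ using h1
  have nz : ∀ (V : Pl k Ω k) w ψ, V.Rep y ψ → W.Φ (W.sp V W.α₁) w ≠ 0 → ψ (p w w) ≠ 0 :=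
    fun V w ψ h hw => by
      obtain ⟨h1, h2⟩ := fin' V w hw
      obtain ⟨h3, h4⟩ := V.rep_of_mem (j := p w w) (hpw w ▸ pow_ne_zero _ h1)
        fun m => val_of_mem (hpw w ▸ fin w h1 V h2 m)
      exact par_ne (h4.par h (par_refl _)) h.ne_right (by rw [h3]; simp)
  have inj : ∀ a b, Par (Ψ a) (Ψ b) → a = b := fun a b h => by
    obtain ⟨V, rfl⟩ := W.gen₁ a
    obtain ⟨V', rfl⟩ := W.gen₁ b
    obtain ⟨w, hw⟩ := Function.ne_iff.1 (W.ne (W.sp V W.α₁))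
    have h1 := (fin' V w hw).1
    have h2 := (hΨ _ V rfl).congr_right h (hΨ _ V' rfl).ne_right
    have h3 := nz V w _ h2 hw
    exact Weil.sp_eq_sp
      (V.rep_of_mem h1 fun j => by rw [hpj w h1, hpw]; exact h2.val_div h3 _).2
      (V'.rep_of_mem h1 fun j => by rw [hpj w h1, hpw]; exact (hΨ _ V' rfl).val_div h3 _).2
  have nz' : ∀ a, Ψ a ≠ 0 := fun a => (W.gen₁ a).elim fun V h => (hΨ a V h).ne_right
  obtain ⟨V₁, -⟩ := W.gen₁ 0
  have h2 : ∀ α, ∃ z : κ → Ω, ∀ V : Pl k Ω k, V.Rep z (Ψ (W.sp V α)) := fun α => by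
    obtain ⟨U, hU⟩ := W.gen₁.spz plt α
    obtain ⟨z, hz⟩ := U.exists_rep (hΨ _ V₁ rfl).ne
    refine ⟨z, fun V => ?_⟩
    obtain ⟨u, hu⟩ := V.exists_rep hz.ne_right
    exact hu.congr_right ((hz.comp hu).par (hΨ _ _ (by rw [W.sp_comp, hU])) (par_refl _)) (nz' _)
  choose Y hY using h2
  have det : ∀ (z z' : κ → Ω) (f : Pl k Ω k → κ → k), (∀ V : Pl k Ω k, V.Rep z (f V)) →
      (∀ V : Pl k Ω k, V.Rep z' (f V)) → Par z z' := fun z z' f h h' =>
    plt.det k Ω κ z z' fun V u u' h1 h2 => par_trans (h1.par (h V) (par_refl _))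
      ((h' V).par h2 (par_refl _)) (h V).ne_right
  refine ⟨
    { W with
      Φ := Ψ
      Φ' := Y
      inj := inj
      inj' := fun α β h => W.inj' _ _ (plt.det k Ω ι _ _ fun V u u' h1 h2 => ?_)
      sp_rep := fun V α => hY α V
      sp'_rep := fun U α => ?_
      cst_par := fun a => det _ _ (fun _ => Ψ a) (fun V => by simpa only [W.sp_cst] using hY (W.cst a) V)
        fun V => V.rep_cst (nz' a) }, rfl, rfl, fun a f hf hV => ?_⟩
  · exact par_trans (h1.par (W.sp_rep V α) (par_refl _))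
      (inj _ _ ((hY α V).par (hY β V) h) ▸ (W.sp_rep V β).par h2 (par_refl _)) (W.ne _)
  · obtain ⟨u, hu⟩ := U.exists_rep (hY α V₁).ne
    refine hu.congr_right (det _ _ _ (fun V => ?_) (hY _)) (hY _ V₁).ne
    obtain ⟨u', hu'⟩ := V.exists_rep hu.ne_right
    exact hu'.congr_right (W.sp_comp U V α ▸ (hu.comp hu').par (hY _ _) (par_refl _)) (nz' _)
  · obtain ⟨w, hw⟩ := Function.ne_iff.1 (W.ne a)
    obtain ⟨V₀, rfl⟩ := W.gen₁ a
    obtain ⟨h1, h2⟩ := fin' V₀ w hw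
    obtain ⟨b, h3, h4, c, h5, h6⟩ := loc w h1 V₀ h2 f
      (fld_le_of (W.rat plt (h := Ψ) (hY W.α₁)) hf) hV
    have h7 := nz V₀ w _ (hΨ _ V₀ rfl) hw
    have h8 := (hY _ V₀).ne_of h7
    have h9 : Algebra.adjoin k (Set.range fun m => y m / x w ^ (d + 1)) ≤
        HL k (1 : κ → ℕ) (Y W.α₁) (Ψ (W.sp V₀ W.α₁)) :=
      Algebra.adjoin_le (Set.range_subset_iff.2 fun m => by
        rw [hpw, div_eq_of_par (det _ _ _ (fun V => hΨ _ V rfl) (hY _))
          ((hΨ _ V₀ rfl).ne_of h7) h8]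
        exact div_mem_one _ h8 h7 m)
    have := (cmp_one (hY _ V₀)).div_mem (h9 h4) (h9 h3) h6 h5
    rwa [mul_div_cancel_left₀ _ (h6.ne_zero h5)] at this

end Vale.Agent.P297Y.AJ
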