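import Vale.Agent.P297Y.AJ.W2

/-! The abelian variety attached to a normal group of points. -/

set_option linter.all false

namespace Vale.Agent.P297Y.AJ

open Vale.Agent.P009.AV (Par AbVar IsMor PP par_of_mk_eq)
open MvPolynomial Pl

theorem Cmp.hl_le₂ {k Ω T σ M ι : Type} [Field k] [Field Ω] [Field T] [Algebra k Ω] [Algebra k T]
    [AddCommMonoid M] [Fintype ι] {V : Pl k Ω T} {wt : σ → M} {v : σ → Ω} {w : σ → T}
    (h : Cmp V wt v w) {u u' : ι → Ω} {y y' : ι → T} (hu : V.Rep u y) (hu' : V.Rep u' y')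
    {j j' : ι} (hj : y j ≠ 0) (hj' : y' j' ≠ 0) (hm : ∀ i, u i / u j ∈ HL k wt v w)
    (hm' : ∀ i, u' i / u' j' ∈ HL k wt v w) :
    HL k (wt2 ι) (Sum.elim u u') (Sum.elim y y') ≤ HL k wt v w := by
  rintro f ⟨n, p, q, h1, h2, h3, h4⟩
  have e : ∀ r : MvPolynomial (ι ⊕ ι) k, r.IsWeightedHomogeneous (wt2 ι) n →
      aeval (Sum.elim u u') r / (u j ^ n.1 * u' j' ^ n.2) ∈ HL k wt v w := fun r hr => by
    rw [← aeval_div_bihom u u' _ _ hr]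
    exact Algebra.adjoin_le (Set.range_subset_iff.2 ((Sum.forall (p := fun s =>
      Sum.elim (fun i => u i / u j) (fun i => u' i / u' j') s ∈ HL k wt v w)).2 ⟨hm, hm'⟩))
      (by rw [Algebra.adjoin_range_eq_range_aeval]; exact ⟨r, rfl⟩)
  have h5 : V.Val (aeval (Sum.elim u u') q / (u j ^ n.1 * u' j' ^ n.2))
      (aeval (Sum.elim y y') q / (y j ^ n.1 * y' j' ^ n.2)) := by
    rw [← aeval_div_bihom _ _ _ _ h2, ← aeval_div_bihom _ _ _ _ h2]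
    exact val_aeval (fun s => by cases s <;> simp [hu.val_div hj, hu'.val_div hj']) q
  have h6 := div_ne_zero h3 (mul_ne_zero (pow_ne_zero n.1 hj) (pow_ne_zero n.2 hj'))
  have h7 := h.div_mem (e p h1) (e q h2) h5 h6
  rwa [div_div_div_cancel_right₀ (div_ne_zero_iff.1 (h5.ne_zero h6)).2, ← h4,
    mul_div_cancel_right₀ _ (div_ne_zero_iff.1 (h5.ne_zero h6)).1] at h7

variable {k Ω G G' ι : Type} [Field k] [Field Ω] [Algebra k Ω] [AddCommGroup G] [AddCommGroup G']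
  [Fintype ι] [CharZero k] [IsAlgClosed k] [IsAlgClosed Ω]

/-- An addition formula that is valid near one point. -/
theorem Weil.exists_add (plt : PLT) (W : Weil k Ω G G' ι) :
    ∃ (n : ℕ × ℕ) (F : ι → MvPolynomial (ι ⊕ ι) k) (j : ι) (a b : G) (w w' : ι → k),
      (∀ i, (F i).IsWeightedHomogeneous (wt2 ι) n) ∧ w ≠ 0 ∧ w' ≠ 0 ∧ Par (W.Φ a) w ∧
      Par (W.Φ b) w' ∧ aeval (Sum.elim w w') (F j) ≠ 0 ∧
      ∀ β β', Par (fun i => aeval (Sum.elim (W.Φ' β) (W.Φ' β')) (F i)) (W.Φ' (β + β')) := by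
  have hI : ∀ α, (ofHom (AlgHom.id k Ω)).Rep (W.Φ' α) (W.Φ' α) := fun α =>
    rep_of_val (W.ne' α) fun i => val_ofHom _ _
  have c₀ := cmp_two (hI W.α₁) (hI W.α₂)
  let E : IntermediateField k Ω := (HL k (wt2 ι) (Sum.elim (W.Φ' W.α₁) (W.Φ' W.α₂))
    (Sum.elim (W.Φ' W.α₁) (W.Φ' W.α₂))).toIntermediateField fun f hf => by
      by_cases h : f = 0
      · rwa [h, inv_zero, ← h]
      · exact c₀.inv_mem hf (val_ofHom _ f) h
  have h1 : Fld k (W.Φ' W.α₁) ≤ E := fld_le_of fun i j => by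
    by_cases h : W.Φ' W.α₁ j = 0
    · rw [h, div_zero]
      exact zero_mem _
    · exact div_mem_inl _ _ h h i
  have h2 : Fld k (W.Φ' W.α₂) ≤ E := fld_le_of fun i j => by
    by_cases h : W.Φ' W.α₂ j = 0
    · rw [h, div_zero]
      exact zero_mem _
    · exact div_mem_inr _ _ h h i
  have h3 : Fld k (W.Φ' (W.α₁ + W.α₂)) ≤ E := W.fld_le plt fun U hU => by
    rw [map_add, W.fix' fun f hf => hU f (h1 hf), W.fix' fun f hf => hU f (h2 hf)]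
  obtain ⟨j, hj⟩ := Function.ne_iff.1 (W.ne' (W.α₁ + W.α₂))
  obtain ⟨n, F, hF, h4, h5⟩ := c₀.exists_poly hj fun i => h3 (mem_fld _ i j)
  obtain ⟨l, hl⟩ := Function.ne_iff.1 (W.ne' W.α₁)
  obtain ⟨l', hl'⟩ := Function.ne_iff.1 (W.ne' W.α₂)
  obtain ⟨V, c, h6, h7, h8⟩ := plt.nst k Ω (ι ⊕ ι) (Sum.elim
    (fun i => W.Φ' W.α₁ i / W.Φ' W.α₁ l) fun i => W.Φ' W.α₂ i / W.Φ' W.α₂ l') _
    ((aeval_div_bihom _ _ _ _ (hF j)).trans_ne
      (div_ne_zero h4 (mul_ne_zero (pow_ne_zero _ hl) (pow_ne_zero _ hl'))))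
  have h9 := (V.rep_of_mem hl fun i => val_of_mem (h6 (Sum.inl i))).2
  have h10 := (V.rep_of_mem hl' fun i => val_of_mem (h6 (Sum.inr i))).2
  refine ⟨n, F, j, _, _, _, _, hF, h9.ne_right, h10.ne_right, (W.sp_rep V _).par h9 (par_refl _),
    (W.sp_rep V _).par h10 (par_refl _), ?_, fun β β' => ?_⟩
  · rw [← h8.unique (val_aeval (fun s => by cases s <;> exact val_of_mem (h6 _)) _)]
    exact h7
  · obtain ⟨U, hU⟩ := W.spz plt (α := ![W.α₁, W.α₂])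
      (fun a => (W.gen (a 0) (a 1)).imp fun _ h => Fin.forall_fin_two.2 h) ![β, β']
    have e1 : W.sp' U W.α₁ = β := hU 0
    have e2 : W.sp' U W.α₂ = β' := hU 1
    rw [← e1, ← e2, ← map_add]
    exact (cmp_two (W.sp'_rep U _) (W.sp'_rep U _)).par (W.sp'_rep U _) hF h5

theorem wa : B_WA := by
  intro plt wn wirr k Ω G G' ι _ _ _ _ _ _ _ _ _ W₀
  obtain ⟨κ, _, W, e1, e2, hN⟩ := wn k Ω G G' ι W₀
  rw [← e1, ← e2]
  let emb : G → PP k κ := fun a => Projectivization.mk k (W.Φ a) (W.ne a)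
  have h0 := fun a => (emb a).rep_nonzero
  have hp : ∀ a, Par (W.Φ a) (emb a).rep := fun a => par_of_mk_eq (emb a).mk_rep.symm
  have hR : ∀ (V : Pl k Ω k) α, V.Rep (W.Φ' α) (emb (W.sp V α)).rep := fun V α =>
    (W.sp_rep V α).congr_right (hp _) (h0 _)
  have nrm : ∀ α, W.Gen α → ∀ (τ : Type) [Finite τ] (z : τ → Ω) (h : G → τ → k),
      (∀ V : Pl k Ω k, V.Rep z (h (W.sp V α))) → ∀ V j, h (W.sp V α) j ≠ 0 → ∀ i,
      z i / z j ∈ HL k (1 : κ → ℕ) (W.Φ' α) (emb (W.sp V α)).rep :=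
    fun α hα τ _ z h hz V j hj i => by
      obtain ⟨l, hl⟩ := Function.ne_iff.1 (W.ne (W.sp V α))
      exact (cmp_one (hR V α)).hl_le (W.sp_rep V α) hl
        (div_mem_one _ ((W.sp_rep V α).ne_of hl) (par_ne (hp _) (h0 _) hl))
        (hN.tr plt W.gen₁ hα _ _ (W.rat plt hz i j) fun V' hV =>
          ((hz V').val_div (hV ▸ hj) i).mem)
  have mor : ∀ (τ : Type) [Finite τ] (z : τ → Ω) (h : G → τ → k),
      (∀ V : Pl k Ω k, V.Rep z (h (W.sp V W.α₁))) → ∀ a, ∃ (F : τ → MvPolynomial κ k) (d : ℕ),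
      (∀ i, (F i).IsHomogeneous d) ∧ (∃ i, eval (emb a).rep (F i) ≠ 0) ∧
      ∀ a', (∃ i, eval (emb a').rep (F i) ≠ 0) →
        ∃ c, ∀ i, eval (emb a').rep (F i) = c * h a' i := fun τ _ z h hz a => by
    obtain ⟨V, rfl⟩ := W.gen₁ a
    obtain ⟨j, hj⟩ := Function.ne_iff.1 (hz V).ne_right
    obtain ⟨d, F, hF, h1, h2⟩ := (cmp_one (hR V W.α₁)).exists_poly ((hz V).ne_of hj)
      (nrm _ W.gen₁ τ z h hz V j hj)
    refine ⟨F, d, hF, ⟨j, h1⟩, fun a' h3 => ?_⟩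
    obtain ⟨V', rfl⟩ := W.gen₁ a'
    exact (par_exists (par_symm ((cmp_one (hR V' W.α₁)).par (hz V') hF h2)) (hz V').ne_right
      (Function.ne_iff.2 h3)).imp fun _ h => h.2
  refine ⟨κ, inferInstance,
    { G := G
      emb := emb
      emb_inj := fun a b h => W.inj _ _ (par_of_mk_eq h)
      irr := wirr k Ω G G' κ W W.ne
      add_reg := fun a b => ?_
      neg_reg := mor κ (W.Φ' (-W.α₁)) (fun a => (emb (-a)).rep) fun V => by
        simpa only [map_neg] using hR V (-W.α₁) },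
    AddEquiv.refl G, W.Φ', hR, fun τ _ B f z hz => mor τ z (fun a => (B.emb (f a)).rep) hz⟩
  obtain ⟨n, F₀, j, a₀, b₀, w, w', hF₀, hw, hw', pw, pw', h1, h2⟩ := W.exists_add plt
  obtain ⟨V, rfl, rfl⟩ := W.gen a b
  have cH := cmp_two (hR V W.α₁) (hR V W.α₂)
  obtain ⟨l, hl⟩ := Function.ne_iff.1 (h0 (W.sp V W.α₁))
  obtain ⟨l', hl'⟩ := Function.ne_iff.1 (h0 (W.sp V W.α₂))
  have L := cH.hl_le (hR V W.α₁) hl (div_mem_inl _ _ ((hR V _).ne_of hl) hl)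
  have L' := cH.hl_le (hR V W.α₂) hl' (div_mem_inr _ _ ((hR V _).ne_of hl') hl')
  obtain ⟨c, hc⟩ : ∃ c, W.sp V W.α₁ + c = a₀ := ⟨_, add_sub_cancel _ _⟩
  obtain ⟨c', hc'⟩ : ∃ c, W.sp V W.α₂ + c = b₀ := ⟨_, add_sub_cancel _ _⟩
  have tr : ∀ α c (V : Pl k Ω k), V.Rep (W.Φ' (α + W.cst c)) (W.Φ (W.sp V α + c)) :=
    fun α c V => by simpa only [map_add, W.sp_cst] using W.sp_rep V (α + W.cst c)
  have r := (tr W.α₁ c V).congr_right (hc ▸ pw) hw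
  have r' := (tr W.α₂ c' V).congr_right (hc' ▸ pw') hw'
  obtain ⟨m, hm⟩ := Function.ne_iff.1 hw
  obtain ⟨m', hm'⟩ := Function.ne_iff.1 hw'
  have L₂ := cH.hl_le₂ r r' hm hm'
    (fun i => L (nrm _ W.gen₁ κ _ (fun a => W.Φ (a + c)) (tr _ c) V m
      (par_ne (par_symm (hc ▸ pw)) (W.ne _) hm) i))
    fun i => L' (nrm _ W.gen₂ κ _ (fun a => W.Φ (a + c')) (tr _ c') V m'
      (par_ne (par_symm (hc' ▸ pw')) (W.ne _) hm') i)
  set γ := W.α₁ + W.cst c + (W.α₂ + W.cst c') with hγ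
  have h3 := par_ne ((cmp_two r r').par (hR V γ) hF₀ (h2 _ _)) (h0 _) h1
  have h4 := (hR V γ).ne_of h3
  have L₃ := cH.hl_le (hR V γ) h3 fun i => L₂ ⟨n, F₀ i, F₀ j, hF₀ i, hF₀ j, h1, by
    rw [div_mul_eq_mul_div, div_eq_iff h4, mul_comm]
    exact h2 _ _ j i⟩
  have e : ∀ V : Pl k Ω k, W.sp V γ + -(c + c') = W.sp V (W.α₁ + W.α₂) := fun V => by
    simp only [hγ, map_add, W.sp_cst]
    abel
  have gγ : W.Gen γ := fun a => (W.gen (a + -(c + c')) 0).imp fun V h =>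
    add_right_cancel ((e V).trans (by rw [map_add, h.1, h.2, add_zero]))
  obtain ⟨i₀, hi⟩ := Function.ne_iff.1 (h0 (W.sp V (W.α₁ + W.α₂)))
  obtain ⟨d, F, hF, h5, h6⟩ := cH.exists_poly ((hR V _).ne_of hi) fun i =>
    L₃ (nrm γ gγ κ _ (fun a => (emb (a + -(c + c'))).rep)
      (fun V => by rw [e]; exact hR V _) V i₀ (by rw [e]; exact hi) i)
  refine ⟨F, ⟨d.1, d.2, fun i => bihom_of (hF i)⟩, ⟨i₀, h5⟩, fun a' b' h7 => ?_⟩
  obtain ⟨V', rfl, rfl⟩ := W.gen a' b'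
  rw [← map_add]
  exact (par_exists (par_symm ((cmp_two (hR V' W.α₁) (hR V' W.α₂)).par (hR V' _) hF h6)) (h0 _)
    (Function.ne_iff.2 h7)).imp fun _ h => h.2

end Vale.Agent.P297Y.AJ
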